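import Crest.Agent.R096.Ce2_537

/-!
# X212 / T layer: PL handle straightening by ladders, definitions and the Props of the split
(helper34)

Everything lives in `V = Fin 3 → ℝ`; coordinate `2` is the vertical (ladder) coordinate.
`K` = handle coordinates (`B^k = [-1,1]^K`), `J` = periodic coordinates (period `1`).
-/

set_option autoImplicit false

open Set Metric Topology

namespace Crest.Agent.X212.Prd34

open Crest.Agent.R096.Ce_537

/-- three-space -/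
abbrev V := Fin 3 → ℝ
/-- the plane -/
abbrev P := Fin 2 → ℝ

/-- locally PL relative to the set `A` -/
def LPL {E F : Type*} [NormedAddCommGroup E] [NormedSpace ℝ E] [NormedAddCommGroup F]
    [NormedSpace ℝ F] (f : E → F) (A : Set E) : Prop :=
  ∀ x ∈ A, ∃ r > 0, PLOn f (ball x r ∩ A)

/-- upper half space and floor -/
def up : Set V := {y | 0 ≤ y 2}
def fl : Set V := {y | y 2 = 0}

/-- `S` is flat at `x`: a PL chart of `V` at `x` carrying the floor to `S` -/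
def FlatAt (S : Set V) (x : V) : Prop :=
  ∃ (B : Set V) (e : PLEquiv (cube 3) B), e.f 0 = x ∧ B ∈ 𝓝 x ∧ B ∩ S = e.f '' (cube 3 ∩ fl)

/-- PL three-manifold `M ⊆ V` with boundary `dM` (not necessarily compact), flat pair charts -/
def Mf (M dM : Set V) : Prop :=
  dM ⊆ M ∧ IsOpen (M \ dM) ∧ ∀ x ∈ dM, ∃ (B : Set V) (e : PLEquiv (cube 3) B),
    e.f 0 = x ∧ B ∈ 𝓝 x ∧ B ∩ M = e.f '' (cube 3 ∩ up) ∧ B ∩ dM = e.f '' (cube 3 ∩ fl)

/-- **(FLAT)** PL surfaces in three-space are locally flat -/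
def FlatStmt : Prop := ∀ (S D Γ : Set V) (x : V), IsBall 2 D Γ → x ∈ D → x ∉ Γ → D ⊆ S →
  D ∈ 𝓝[S] x → FlatAt S x

/-- **(DEHN)** Dehn's lemma -/
def DehnStmt : Prop := ∀ (M dM Γ : Set V) (γ : PLEquiv (sph 2) Γ) (f : P → V), Mf M dM →
  Γ ⊆ dM → ContinuousOn f (cube 2) → MapsTo f (cube 2) M → EqOn f γ.f (sph 2) →
  ∃ D, IsBall 2 D Γ ∧ D ⊆ M ∧ D ∩ dM = Γ

/-- lateral boundary of the cube -/
def side : Set V := {y | y ∈ cube 3 ∧ (|y 0| = 1 ∨ |y 1| = 1)}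

/-- **(THICK)** a proper disc has a product neighbourhood -/
def ThickStmt : Prop := ∀ (M dM D Γ U : Set V), Mf M dM → IsBall 2 D Γ → D ⊆ M → D ∩ dM = Γ →
  IsOpen U → D ⊆ U → ∃ (R : Set V) (e : PLEquiv (cube 3) R), R ⊆ M ∩ U ∧
    e.f '' (cube 3 ∩ fl) = D ∧ R ∩ dM = e.f '' side ∧ ∀ x ∈ D, R ∈ 𝓝[M] x

/-- the handle `B^K × ℝ^(3-k)` -/
def slab (K : Finset (Fin 3)) : Set V := {x | ∀ i ∈ K, |x i| ≤ 1}
/-- its core -/
def core (K : Finset (Fin 3)) : Set V := {x | x ∈ slab K ∧ ∀ i, i ∉ K → x i = 0}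
/-- the zone where the map is already PL -/
def rim (K : Finset (Fin 3)) : Set V := {x | ∃ i ∈ K, 1 / 2 < |x i|}
/-- the complement of the open handle -/
def out (K : Finset (Fin 3)) : Set V := {x | ∃ i ∈ K, 1 ≤ |x i|}
/-- the lattice `ℤ^J` -/
def lat (J : Finset (Fin 3)) : Set V :=
  {l | ∀ i, (i ∈ J → ∃ n : ℤ, l i = n) ∧ (i ∉ J → l i = 0)}

/-- an open embedding of `V / ℤ^J` into `V`, read on the universal cover -/
structure Per (J : Finset (Fin 3)) (H : V → V) : Prop where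
  cont : Continuous H
  opn : IsOpenMap H
  fib : ∀ x y, H x = H y ↔ x - y ∈ lat J

/-- the point `(y, c)` -/
def lv (c : ℝ) (y : P) : V := ![y 0, y 1, c]

/-- a rung at level `c ± δ`, lifted to the universal cover and extended by the level plane
outside the handle -/
structure Rung (K J : Finset (Fin 3)) (H : V → V) (c δ : ℝ) (u : P → V) : Prop where
  cont : Continuous u
  inj : Function.Injective u
  eqv : ∀ (y m : P), lv 0 m ∈ lat J → u (y + m) = u y + lv 0 m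
  bd : ∀ y, lv c y ∈ out K → u y = lv c y
  ins : ∀ y, lv c y ∉ out K → u y ∉ out K
  ht : ∀ y, |u y 2 - c| < δ
  pl : LocPL (fun y => H (u y)) univ

/-- PL polar coordinates: first variable = angle (period 1), second = radius parameter -/
structure Pol (pol : P → P) (ρ : ℝ → ℝ) : Prop where
  pl : LocPL pol univ
  opn : IsOpenMap pol
  fib : ∀ y y', pol y = pol y' ↔ (∃ m : ℤ, y 0 - y' 0 = m) ∧ y 1 = y' 1
  mono : StrictMono ρ
  contρ : Continuous ρ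
  pos : ∀ t, 0 < ρ t
  nrm : ∀ y, ‖pol y‖ = ρ (y 1)
  sur : ∀ t z, ‖z‖ = ρ t → ∃ s, pol ![s, t] = z
  aff : ∀ y, ‖y‖ ≤ 1 / 4 → pol y = ![y 0, 1 + y 1]

/-- **(POL)** -/
def PolStmt : Prop := ∃ pol ρ, Pol pol ρ

/-- polar coordinates in the last two variables -/
def qq (pol : P → P) (x : V) : V := ![x 0, pol ![x 1, x 2] 0, pol ![x 1, x 2] 1]

/-- **(RUNG1)** the PL annulus (`h` an open embedding, PL near `∂B¹ × ℝ²`) -/
def Rung1Stmt : Prop := ∀ pol ρ, Pol pol ρ → ∀ h : V → V, Per ∅ h → LocPL h (rim {0}) →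
  ∀ c δ : ℝ, 0 < δ → ∃ u, Rung {0} {1} (fun x => h (qq pol x)) c δ u

/-- **(RUNG0)** the PL torus (`h` an open embedding of `S¹ × ℝ²`) -/
def Rung0Stmt : Prop := ∀ pol ρ, Pol pol ρ → ∀ h : V → V, Per {0} h →
  ∀ c δ : ℝ, 0 < δ → ∃ u, Rung ∅ {0, 1} (fun x => h (qq pol x)) c δ u

/-- the side below / above a rung -/
def Dn (u : P → V) : Set V := {x | ∃ z, (∀ y, z 2 < u y 2) ∧ JoinedIn (range u)ᶜ x z}
def Up (u : P → V) : Set V := {x | ∃ z, (∀ y, u y 2 < z 2) ∧ JoinedIn (range u)ᶜ x z}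

/-- the strip `ℝ × [0,1]` -/
def strip : Set P := {y | 0 ≤ y 1 ∧ y 1 ≤ 1}

/-- **(ANN)** two disjoint vertical annuli between two PL tori -/
def AnnStmt : Prop := ∀ (H : V → V), Per {0, 1} H → ∀ (c : ℝ) (u u' : P → V),
  Rung ∅ {0, 1} H c (1 / 3) u → Rung ∅ {0, 1} H (c + 1) (1 / 3) u' →
  ∃ a : Fin 2 → P → V, ∀ j, ContinuousOn (a j) strip ∧
    (∀ y ∈ strip, ∀ m : ℤ, a j ![y 0 + m, y 1] = a j y + ![(m : ℝ), 0, 0]) ∧
    (∀ s : ℝ, a j ![s, 0] = u ![s, ((j : ℕ) : ℝ) / 2] ∧ a j ![s, 1] = u' ![s, ((j : ℕ) : ℝ) / 2]) ∧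
    (∀ y : P, 0 < y 1 → y 1 < 1 → a j y ∈ Up u ∩ Dn u') ∧
    LPL (fun y => H (a j y)) strip ∧
    ∀ j', ∀ y ∈ strip, ∀ y' ∈ strip, H (a j y) = H (a j' y') →
      j = j' ∧ (∃ m : ℤ, y 0 - y' 0 = m) ∧ y 1 = y' 1

/-- **output**: PL handle straightening for the handle `K` -/
def PLHS (K : Finset (Fin 3)) : Prop := ∀ h : V → V, IsOpenEmbedding h → LocPL h (rim K) →
  ∃ ψ : V ≃ₜ V, (∃ R, ∀ x, R ≤ ‖x‖ → ψ x = x) ∧ (∀ x ∈ out K, ψ x = x) ∧
    LocPL (fun x => h (ψ x)) (core K)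

end Crest.Agent.X212.Prd34
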