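import Crest.Agent.X212.Prd34.Defs

/-!
# X212 / T layer: internal leaves of PROD (helper34)
-/

set_option autoImplicit false

open Set Metric Topology

namespace Crest.Agent.X212.Prd34

open Crest.Agent.R096.Ce_537

/-- horizontal projection -/
def pr (x : V) : P := ![x 0, x 1]

/-- the layer `c ≤ x 2 ≤ c + 1` of the handle -/
def Lay (K : Finset (Fin 3)) (c : ℝ) : Set V := {x | x ∈ slab K ∧ c ≤ x 2 ∧ x 2 ≤ c + 1}

/-- the block between two rungs (on the universal cover) -/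
def Blk (K : Finset (Fin 3)) (u u' : P → V) : Set V :=
  slab K ∩ (Up u ∪ range u) ∩ (Dn u' ∪ range u')

/-- `G` is a PL product structure on the block between `u` and `u'` -/
structure Ext (K J : Finset (Fin 3)) (H : V → V) (c : ℝ) (u u' : P → V) (G : V → V) : Prop where
  pl : LPL G (Lay K c)
  bot : ∀ x ∈ Lay K c, x 2 = c → G x = H (u (pr x))
  top : ∀ x ∈ Lay K c, x 2 = c + 1 → G x = H (u' (pr x))
  sid : ∀ x ∈ Lay K c, x ∈ out K → G x = H x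
  fib : ∀ x ∈ Lay K c, ∀ y ∈ Lay K c, G x = G y ↔ x - y ∈ lat J
  img : G '' Lay K c = H '' Blk K u u'

/-- **(BLK)** blocks are products -/
def BlkStmt (K J : Finset (Fin 3)) : Prop := ∀ H : V → V, Per J H → LocPL H (rim K) →
  ∀ (c : ℝ) (u u' : P → V), Rung K J H c (1 / 3) u → Rung K J H (c + 1) (1 / 3) u' →
  ∃ G, Ext K J H c u u' G

/-- **(SOLID)** a compact manifold bounded by a parametrised torus whose meridian is
null-homotopic is a solid torus, extending the parametrisation -/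
def SolidStmt : Prop := ∀ (Δ dΔ : Set P) (b : P × ℝ → V) (W : Set V) (f : P → V),
  IsBall 2 Δ dΔ → LPL b (dΔ ×ˢ univ) →
  (∀ p ∈ dΔ ×ˢ (univ : Set ℝ), ∀ p' ∈ dΔ ×ˢ (univ : Set ℝ),
    b p = b p' ↔ p.1 = p'.1 ∧ ∃ m : ℤ, p.2 - p'.2 = m) →
  IsCompact W → Mf W (b '' (dΔ ×ˢ univ)) →
  ContinuousOn f Δ → MapsTo f Δ W → (∀ y ∈ dΔ, f y = b (y, 0)) →
  ∃ G : P × ℝ → V, LPL G (Δ ×ˢ univ) ∧ EqOn G b (dΔ ×ˢ univ) ∧
    (∀ p ∈ Δ ×ˢ (univ : Set ℝ), ∀ p' ∈ Δ ×ˢ (univ : Set ℝ),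
      G p = G p' ↔ p.1 = p'.1 ∧ ∃ m : ℤ, p.2 - p'.2 = m) ∧ G '' (Δ ×ˢ univ) = W

/-- **(RUNG2)** the PL disc -/
def Rung2Stmt : Prop := ∀ h : V → V, Per ∅ h → LocPL h (rim {0, 1}) →
  ∀ c δ : ℝ, 0 < δ → ∃ u, Rung {0, 1} ∅ h c δ u

/-- **(CORE1)** the special annulus through the core -/
def Core1Stmt : Prop := ∀ pol ρ, Pol pol ρ → ∀ h : V → V, Per ∅ h → LocPL h (rim {0}) →
  ∃ u, Rung {0} {1} (fun x => h (qq pol x)) 0 (1 / 3) u ∧
    ∀ t : ℝ, |t| ≤ 1 → |u ![t, 0] 1| < 1 / 4 ∧ |u ![t, 0] 2| < 1 / 4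

/-- **(LADDER)** the glued ladder map -/
structure Lad (K J : Finset (Fin 3)) (H G : V → V) : Prop where
  pl : LPL G (slab K)
  fib : ∀ x ∈ slab K, ∀ y ∈ slab K, G x = G y ↔ x - y ∈ lat J
  img : G '' slab K = H '' slab K
  vert : ∀ x ∈ slab K, ∀ y ∈ slab K, G x = H y → ∀ i, i ∉ J → |x i - y i| ≤ 2
  sid : ∀ x ∈ slab K, x ∈ out K → G x = H x

/-- **(GLUE)** blocks glue to a ladder (`K ∪ J = {0,1}`) -/
def GlueStmt : Prop := ∀ (K J : Finset (Fin 3)), K ∪ J = {0, 1} → Disjoint K J →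
  ∀ H : V → V, Per J H → ∀ (u : ℤ → P → V) (G : ℤ → V → V),
  (∀ n : ℤ, Rung K J H n (1 / 3) (u n)) → (∀ n : ℤ, Ext K J H n (u n) (u (n + 1)) (G n)) →
  ∃ G', Lad K J H G' ∧ ∀ x ∈ slab K, x 2 = 0 → G' x = H (u 0 (pr x))

end Crest.Agent.X212.Prd34
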