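import Crest.Agent.X212.Prd34.Leaf
import Crest.Agent.X212.Lad50.PL
import Crest.Agent.R096.P2f_241
import Crest.Agent.R105.Iod1_690

/-!
# X212 / T layer: sides of surfaces, recognition of manifolds, Alexander extension (helper34)
-/

set_option autoImplicit false

open Set Metric Topology

namespace Crest.Agent.X212.Prd34

open Crest.Agent.R096.Ce_537 Crest.Agent.X212.Lad50

/-! ### `LPL` calculus -/

section LPL

variable {E F G : Type*} [NormedAddCommGroup E] [NormedSpace ℝ E] [NormedAddCommGroup F]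
  [NormedSpace ℝ F] [NormedAddCommGroup G] [NormedSpace ℝ G]

lemma lpl_iff {f : E → F} {A : Set E} : LPL f A ↔ ∀ x ∈ A, ∃ N ∈ 𝓝[A] x, PLOn f N := by
  constructor
  · intro h x hx
    obtain ⟨r, hr, hp⟩ := h x hx
    exact ⟨_, by rw [inter_comm]; exact inter_mem_nhdsWithin _ (ball_mem_nhds x hr), hp⟩
  · intro h x hx
    obtain ⟨N, hN, hp⟩ := h x hx
    obtain ⟨r, hr, hs⟩ := Metric.mem_nhdsWithin_iff.1 hN
    exact ⟨r, hr, hp.mono hs⟩

lemma LPL.mono {f : E → F} {A B : Set E} (h : LPL f A) (hB : B ⊆ A) : LPL f B := by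
  intro x hx
  obtain ⟨r, hr, hp⟩ := h x (hB hx)
  exact ⟨r, hr, hp.mono (inter_subset_inter_right _ hB)⟩

lemma LPL.congr {f g : E → F} {A : Set E} (h : LPL f A) (e : EqOn g f A) : LPL g A := by
  intro x hx
  obtain ⟨r, hr, hp⟩ := h x hx
  exact ⟨r, hr, hp.congr (e.mono inter_subset_right)⟩

lemma LPL.continuousOn {f : E → F} {A : Set E} (h : LPL f A) : ContinuousOn f A := by
  intro x hx
  obtain ⟨N, hN, hp⟩ := lpl_iff.1 h x hx
  exact (hp.1 x (mem_of_mem_nhdsWithin hx hN)).mono_of_mem_nhdsWithin hN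

lemma lpl_of_plOn {f : E → F} {A : Set E} (h : PLOn f A) : LPL f A :=
  fun _ _ => ⟨1, one_pos, h.mono inter_subset_right⟩

lemma lpl_of_locPL {f : E → F} {A : Set E} (h : LocPL f A) : LPL f A := by
  intro x hx
  obtain ⟨r, hr, hp⟩ := h x hx
  exact ⟨r, hr, hp.mono inter_subset_left⟩

lemma LPL.locPL {f : E → F} {A : Set E} (h : LPL f A) (hA : IsOpen A) : LocPL f A := by
  refine locPL_of_nhds fun x hx => ?_
  obtain ⟨N, hN, hp⟩ := lpl_iff.1 h x hx
  rw [hA.nhdsWithin_eq hx] at hN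
  exact ⟨N, hN, hp⟩

lemma LPL.comp {f : E → F} {g : F → G} {A : Set E} {B : Set F} (hg : LPL g B) (hf : LPL f A)
    (hm : MapsTo f A B) : LPL (fun x => g (f x)) A := by
  rw [lpl_iff] at *
  intro x hx
  obtain ⟨N, hN, hp⟩ := hf x hx
  obtain ⟨N', hN', hp'⟩ := hg (f x) (hm hx)
  have hc : ContinuousWithinAt f A x :=
    (hp.1 x (mem_of_mem_nhdsWithin hx hN)).mono_of_mem_nhdsWithin hN
  have h1 : f ⁻¹' N' ∈ 𝓝[A] x := (hc.tendsto_nhdsWithin hm) hN'
  exact ⟨N ∩ f ⁻¹' N', Filter.inter_mem hN h1,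
    hp'.comp (hp.mono inter_subset_left) fun y hy => hy.2⟩

lemma LPL.plOn {f : E → F} {A K : Set E} (h : LPL f A) (hK : IsCompact K) (hs : K ⊆ A) :
    PLOn f K := by
  classical
  refine ⟨h.continuousOn.mono hs, ?_⟩
  have h1 : ∀ x ∈ K, ∃ r > 0, PLOn f (ball x r ∩ A) := fun x hx => h x (hs hx)
  choose! r hr hp using h1
  obtain ⟨t, ht, hcov⟩ := hK.elim_nhds_subcover (fun x => ball x (r x))
    (fun x hx => ball_mem_nhds x (hr x hx))
  have h2 : ∀ x ∈ K, ∃ S : Finset (E →ᵃ[ℝ] F), ∀ y ∈ ball x (r x) ∩ A, ∃ g ∈ S, f y = g y :=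
    fun x hx => (hp x hx).2
  choose! S hS using h2
  refine ⟨t.biUnion S, fun y hy => ?_⟩
  obtain ⟨x, hx, hyx⟩ := mem_iUnion₂.1 (hcov hy)
  obtain ⟨g, hg, e⟩ := hS x (ht x hx) y ⟨hyx, hs hy⟩
  exact ⟨g, Finset.mem_biUnion.2 ⟨x, hx, hg⟩, e⟩

/-- two closed pieces -/
lemma LPL.union {f : E → F} {A B : Set E} (hA : LPL f A) (hB : LPL f B) (cA : IsClosed A)
    (cB : IsClosed B) : LPL f (A ∪ B) := by
  have key : ∀ C : Set E, LPL f C → IsClosed C → ∀ x, ∃ r > 0, PLOn f (closedBall x r ∩ C) := by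
    intro C hC cC x
    by_cases hx : x ∈ C
    · obtain ⟨r, hr, hp⟩ := hC x hx
      exact ⟨r / 2, by positivity, hp.mono (inter_subset_inter_left _
        (closedBall_subset_ball (by linarith)))⟩
    · obtain ⟨r, hr, hs⟩ := Metric.nhds_basis_closedBall.mem_iff.1 (cC.isOpen_compl.mem_nhds hx)
      refine ⟨r, hr, ?_⟩
      have : closedBall x r ∩ C = ∅ := eq_empty_of_forall_notMem fun y hy => hs hy.1 hy.2
      rw [this]; exact plOn_empty f
  intro x _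
  obtain ⟨r, hr, hp⟩ := key A hA cA x
  obtain ⟨s, hs, hq⟩ := key B hB cB x
  refine ⟨min r s, lt_min hr hs, (PLOn.union hp hq (isClosed_closedBall.inter cA)
    (isClosed_closedBall.inter cB)).mono ?_⟩
  rintro y ⟨hy, hy' | hy'⟩
  · exact Or.inl ⟨ball_subset_closedBall (ball_subset_ball (min_le_left _ _) hy), hy'⟩
  · exact Or.inr ⟨ball_subset_closedBall (ball_subset_ball (min_le_right _ _) hy), hy'⟩

end LPL

/-! ### sides -/

/-- an open side of a closed connected set is connected if it is so locally -/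
theorem side_conn {X : Type*} [TopologicalSpace X] [PreconnectedSpace X] {S O : Set X}
    (hS : IsPreconnected S) (hne : S.Nonempty) (hO : IsOpen O) (hd : Disjoint O S)
    (hO' : IsOpen (Sᶜ \ O))
    (hl : ∀ x ∈ S, ∃ B ∈ 𝓝 x, IsPreconnected (B ∩ O) ∧ x ∈ closure (B ∩ O)) :
    IsPreconnected O := by
  by_contra hcon
  rw [isPreconnected_iff_subset_of_disjoint] at hcon
  push Not at hcon
  obtain ⟨u, v, hu, hv, hcov, hdis, hnu, hnv⟩ := hcon
  have key : ∀ u v : Set X, IsOpen u → IsOpen v → O ⊆ u ∪ v → O ∩ (u ∩ v) = ∅ → ¬ O ⊆ v →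
      (S ∩ closure (O ∩ u)).Nonempty := by
    intro u v hu hv hcov hdis hnv
    by_contra hem
    have hcl : IsClosed (O ∩ u) := by
      rw [← closure_subset_iff_isClosed]
      intro x hx
      have hxS : x ∉ S := fun h => hem ⟨x, h, hx⟩
      have hxO : x ∈ O := by
        by_contra hxO
        obtain ⟨y, hy1, hy2⟩ := mem_closure_iff.1 hx _ hO' ⟨hxS, hxO⟩
        exact hy1.2 hy2.1
      rcases hcov hxO with h | h
      · exact ⟨hxO, h⟩
      · obtain ⟨y, hy1, hy2⟩ := mem_closure_iff.1 hx _ hv h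
        have : y ∈ O ∩ (u ∩ v) := ⟨hy2.1, hy2.2, hy1⟩
        rw [hdis] at this; exact this.elim
    rcases isClopen_iff.1 ⟨hcl, hO.inter hu⟩ with h | h
    · apply hnv
      intro x hx
      rcases hcov hx with h' | h'
      · have : x ∈ O ∩ u := ⟨hx, h'⟩
        rw [h] at this; exact this.elim
      · exact h'
    · obtain ⟨x, hx⟩ := hne
      have : x ∈ O ∩ u := h ▸ mem_univ x
      exact disjoint_left.1 hd this.1 hx
  have h1 := key u v hu hv hcov hdis hnv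
  have h2 := key v u hv hu (by rwa [union_comm]) (by rwa [inter_comm v u]) hnu
  have h3 : S ⊆ closure (O ∩ u) ∪ closure (O ∩ v) := by
    intro x hx
    obtain ⟨B, -, -, hc⟩ := hl x hx
    rw [← closure_union]
    refine closure_mono ?_ hc
    rintro y ⟨-, hy⟩
    rcases hcov hy with h | h
    · exact Or.inl ⟨hy, h⟩
    · exact Or.inr ⟨hy, h⟩
  obtain ⟨x, hxS, hx1, hx2⟩ := (isPreconnected_closed_iff.1 hS) _ _ isClosed_closure
    isClosed_closure h3 h1 h2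
  obtain ⟨B, hB, hp, -⟩ := hl x hxS
  obtain ⟨y, hy1, hy2⟩ := mem_closure_iff_nhds.1 hx1 B hB
  obtain ⟨z, hz1, hz2⟩ := mem_closure_iff_nhds.1 hx2 B hB
  obtain ⟨w, hw1, hw2⟩ := hp u v hu hv (fun w hw => hcov hw.2) ⟨y, ⟨hy1, hy2.1⟩, hy2.2⟩
    ⟨z, ⟨hz1, hz2.1⟩, hz2.2⟩
  have : w ∈ O ∩ (u ∩ v) := ⟨hw1.2, hw2⟩
  rw [hdis] at this; exact this.elim

/-- the open upper and lower halves of the cube -/
def upo : Set V := {y | 0 < y 2}
def dno : Set V := {y | y 2 < 0}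

lemma mem_up {y : V} : y ∈ up ↔ 0 ≤ y 2 := Iff.rfl
lemma mem_fl {y : V} : y ∈ fl ↔ y 2 = 0 := Iff.rfl
lemma mem_upo {y : V} : y ∈ upo ↔ 0 < y 2 := Iff.rfl
lemma mem_dno {y : V} : y ∈ dno ↔ y 2 < 0 := Iff.rfl

lemma convex_upo : Convex ℝ (cube 3 ∩ upo) :=
  (convex_closedBall _ _).inter (convex_halfSpace_gt (f := fun y : V => y 2)
    ⟨fun _ _ => rfl, fun _ _ => rfl⟩ 0)

lemma convex_dno : Convex ℝ (cube 3 ∩ dno) :=
  (convex_closedBall _ _).inter (convex_halfSpace_lt (f := fun y : V => y 2)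
    ⟨fun _ _ => rfl, fun _ _ => rfl⟩ 0)

lemma zero_mem_closure_aux (s : ℝ) (hs : |s| = 1) :
    (0 : V) ∈ closure (cube 3 ∩ {y | 0 < s * y 2}) := by
  have ht : Filter.Tendsto (fun t : ℝ => (fun _ => t * s : V)) (𝓝[>] 0) (𝓝 0) := by
    have : Continuous (fun t : ℝ => (fun _ => t * s : V)) := by fun_prop
    have h := this.tendsto 0
    simp only [zero_mul] at h
    exact h.mono_left nhdsWithin_le_nhds
  refine mem_closure_of_tendsto ht ?_
  filter_upwards [Ioo_mem_nhdsGT (zero_lt_one (α := ℝ))] with t ht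
  have hs2 : s * s = 1 := by rw [← abs_mul_abs_self, hs]; norm_num
  refine ⟨?_, ?_⟩
  · simp only [cube, mem_closedBall_zero_iff, pi_norm_const, Real.norm_eq_abs, abs_mul, hs,
      abs_of_pos ht.1]
    linarith [ht.2]
  · show 0 < s * (t * s)
    nlinarith [ht.1]

lemma zero_mem_closure_upo : (0 : V) ∈ closure (cube 3 ∩ upo) := by
  simpa [upo] using zero_mem_closure_aux 1 (by simp)

lemma zero_mem_closure_dno : (0 : V) ∈ closure (cube 3 ∩ dno) := by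
  simpa [dno] using zero_mem_closure_aux (-1) (by simp)

lemma zero_mem_cube (k : ℕ) : (0 : Fin k → ℝ) ∈ cube k := by simp [cube]

lemma mem_closure_image {B : Set V} (e : PLEquiv (cube 3) B) {A : Set V}
    (h : (0 : V) ∈ closure (cube 3 ∩ A)) : e.f 0 ∈ closure (e.f '' (cube 3 ∩ A)) :=
  ((e.pf.1 0 (zero_mem_cube 3)).mono inter_subset_left).mem_closure_image h

/-- the two sides in a chart -/
lemma chart_sides {M dM B : Set V} (e : PLEquiv (cube 3) B)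
    (h1 : B ∩ M = e.f '' (cube 3 ∩ up)) (h2 : B ∩ dM = e.f '' (cube 3 ∩ fl)) :
    B ∩ (M \ dM) = e.f '' (cube 3 ∩ upo) ∧ B ∩ Mᶜ = e.f '' (cube 3 ∩ dno) := by
  have k1 : ∀ y ∈ cube 3, (e.f y ∈ M ↔ y ∈ up) := by
    intro y hy
    constructor
    · intro h
      have : e.f y ∈ e.f '' (cube 3 ∩ up) := h1 ▸ ⟨e.mf hy, h⟩
      obtain ⟨z, hz, hzy⟩ := this
      rw [← e.injOn hz.1 hy hzy]; exact hz.2
    · intro h
      have : e.f y ∈ B ∩ M := h1 ▸ ⟨y, ⟨hy, h⟩, rfl⟩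
      exact this.2
  have k2 : ∀ y ∈ cube 3, (e.f y ∈ dM ↔ y ∈ fl) := by
    intro y hy
    constructor
    · intro h
      have : e.f y ∈ e.f '' (cube 3 ∩ fl) := h2 ▸ ⟨e.mf hy, h⟩
      obtain ⟨z, hz, hzy⟩ := this
      rw [← e.injOn hz.1 hy hzy]; exact hz.2
    · intro h
      have : e.f y ∈ B ∩ dM := h2 ▸ ⟨y, ⟨hy, h⟩, rfl⟩
      exact this.2
  constructor
  · ext x
    constructor
    · rintro ⟨hB, hM, hd⟩
      refine ⟨e.g x, ⟨e.mg hB, ?_⟩, e.ri x hB⟩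
      have a := (k1 _ (e.mg hB)).1 (by rwa [e.ri x hB])
      have b : e.g x ∉ fl := fun h => hd (by have := (k2 _ (e.mg hB)).2 h; rwa [e.ri x hB] at this)
      exact lt_of_le_of_ne a (Ne.symm b)
    · rintro ⟨y, ⟨hy, hy'⟩, rfl⟩
      exact ⟨e.mf hy, (k1 y hy).2 (mem_up.2 (le_of_lt (mem_upo.1 hy'))), fun h => (ne_of_gt hy') ((k2 y hy).1 h)⟩
  · ext x
    constructor
    · rintro ⟨hB, hM⟩
      refine ⟨e.g x, ⟨e.mg hB, ?_⟩, e.ri x hB⟩
      by_contra hn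
      exact hM (by have := (k1 _ (e.mg hB)).2 (mem_up.2 (not_lt.1 (mt mem_dno.2 hn))); rwa [e.ri x hB] at this)
    · rintro ⟨y, ⟨hy, hy'⟩, rfl⟩
      exact ⟨e.mf hy, fun h => not_le.2 (mem_dno.1 hy') (mem_up.1 ((k1 y hy).1 h))⟩

/-- **both sides of a connected boundary are connected** -/
theorem Mf.sides {M dM : Set V} (h : Mf M dM) (hM : IsClosed M) (hd : IsPreconnected dM)
    (hne : dM.Nonempty) : IsPreconnected Mᶜ ∧ IsPreconnected (M \ dM) := by
  obtain ⟨hs, ho, hc⟩ := h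
  constructor
  · refine side_conn hd hne hM.isOpen_compl (disjoint_left.2 fun x hx hx' => hx (hs hx')) ?_ ?_
    · convert ho using 1
      ext x; simp only [mem_diff, mem_compl_iff, not_not]; tauto
    · intro x hx
      obtain ⟨B, e, h0, hB, h1, h2⟩ := hc x hx
      refine ⟨B, hB, ?_⟩
      rw [(chart_sides e h1 h2).2, ← h0]
      exact ⟨convex_dno.isPreconnected.image _ (e.pf.1.mono inter_subset_left),
        mem_closure_image e zero_mem_closure_dno⟩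
  · refine side_conn hd hne ho (disjoint_left.2 fun x hx hx' => hx.2 hx') ?_ ?_
    · convert hM.isOpen_compl using 1
      ext x; simp only [mem_diff, mem_compl_iff]
      have := @hs x
      tauto
    · intro x hx
      obtain ⟨B, e, h0, hB, h1, h2⟩ := hc x hx
      refine ⟨B, hB, ?_⟩
      rw [(chart_sides e h1 h2).1, ← h0]
      exact ⟨convex_upo.isPreconnected.image _ (e.pf.1.mono inter_subset_left),
        mem_closure_image e zero_mem_closure_upo⟩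

lemma Mf.mem_closure {M dM : Set V} (h : Mf M dM) {x : V} (hx : x ∈ dM) :
    x ∈ closure (M \ dM) ∧ x ∈ closure Mᶜ := by
  obtain ⟨B, e, h0, hB, h1, h2⟩ := h.2.2 x hx
  have := chart_sides e h1 h2
  constructor
  · refine closure_mono (inter_subset_right (s := B)) ?_
    rw [this.1, ← h0]; exact mem_closure_image e zero_mem_closure_upo
  · refine closure_mono (inter_subset_right (s := B)) ?_
    rw [this.2, ← h0]; exact mem_closure_image e zero_mem_closure_dno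

lemma Mf.frontier_subset {M dM : Set V} (h : Mf M dM) (hM : IsClosed M) : frontier M ⊆ dM := by
  intro x hx
  by_contra hn
  exact hx.2 (interior_maximal diff_subset h.2.1 ⟨hM.closure_subset hx.1, hn⟩)

lemma Mf.interior_eq {M dM : Set V} (h : Mf M dM) : interior M = M \ dM := by
  refine Subset.antisymm (fun x hx => ⟨interior_subset hx, fun hd => ?_⟩)
    (interior_maximal diff_subset h.2.1)
  obtain ⟨y, hy1, hy2⟩ := mem_closure_iff.1 (h.mem_closure hd).2 _ isOpen_interior hx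
  exact hy2 (interior_subset hy1)

/-! ### shrinking and flipping charts -/

/-- the diagonal map `(ε, ε, s ε)` -/
noncomputable def dg (a s : ℝ) : V →L[ℝ] V :=
  ContinuousLinearMap.pi fun i => (if i = 2 then s * a else a) • ContinuousLinearMap.proj i

lemma dg_apply (a s : ℝ) (y : V) (i : Fin 3) : dg a s y i = (if i = 2 then s * a else a) * y i := by
  by_cases h : i = 2 <;> simp [dg, h]

lemma norm_dg {a s : ℝ} (ha : 0 ≤ a) (hs : |s| = 1) (y : V) : ‖dg a s y‖ ≤ a * ‖y‖ := by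
  rw [pi_norm_le_iff_of_nonneg (by positivity)]
  intro i
  rw [dg_apply, norm_mul]
  refine mul_le_mul ?_ (norm_le_pi_norm y i) (norm_nonneg _) ha
  split_ifs
  · rw [Real.norm_eq_abs, abs_mul, hs, one_mul, abs_of_nonneg ha]
  · rw [Real.norm_eq_abs, abs_of_nonneg ha]

lemma dg_dg {a s : ℝ} (ha : a ≠ 0) (hs : |s| = 1) (y : V) : dg a⁻¹ s (dg a s y) = y := by
  have hs2 : s * s = 1 := by rw [← abs_mul_abs_self, hs]; norm_num
  funext i
  rw [dg_apply, dg_apply]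
  split_ifs
  · calc s * a⁻¹ * (s * a * y i) = (s * s) * (a⁻¹ * a) * y i := by ring
      _ = y i := by rw [hs2, inv_mul_cancel₀ ha]; ring
  · field_simp

/-- a chart can be shrunk into any neighbourhood and flipped -/
lemma shrink {B : Set V} (e : PLEquiv (cube 3) B) (hB : B ∈ 𝓝 (e.f 0)) {N : Set V}
    (hN : N ∈ 𝓝 (e.f 0)) (s : ℝ) (hs : |s| = 1) :
    ∃ (B' : Set V) (e' : PLEquiv (cube 3) B'), e'.f 0 = e.f 0 ∧ B' ∈ 𝓝 (e.f 0) ∧ B' ⊆ B ∩ N ∧
      ∀ (A A' : Set V), (∀ a > (0 : ℝ), ∀ y, dg a s y ∈ A ↔ y ∈ A') →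
        B' ∩ e.f '' (cube 3 ∩ A) = e'.f '' (cube 3 ∩ A') := by
  have hc : ContinuousWithinAt e.f (cube 3) 0 := e.pf.1 0 (zero_mem_cube 3)
  obtain ⟨r, hr, hsub⟩ := Metric.mem_nhdsWithin_iff.1 (hc hN)
  set a : ℝ := min (r / 2) 1 with ha
  have ha0 : 0 < a := lt_min (by linarith) one_pos
  have ha1 : a ≤ 1 := min_le_right _ _
  have har : a < r := lt_of_le_of_lt (min_le_left _ _) (by linarith)
  have m1 : ∀ y ∈ cube 3, ‖dg a s y‖ ≤ a := fun y hy => by
    have := norm_dg ha0.le hs y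
    have h2 : ‖y‖ ≤ 1 := by simpa [cube] using hy
    nlinarith
  have m2 : ∀ y : V, ‖y‖ ≤ a → dg a⁻¹ s y ∈ cube 3 := fun y hy => by
    have := norm_dg (inv_pos.2 ha0).le hs y
    simp only [cube, mem_closedBall_zero_iff]
    refine this.trans ?_
    rw [inv_mul_le_iff₀ ha0]; linarith
  have m3 : ∀ y : V, dg a s (dg a⁻¹ s y) = y := fun y => by
    have := dg_dg (inv_ne_zero ha0.ne') hs y
    rwa [inv_inv] at this
  have sub : closedBall (0 : V) a ⊆ cube 3 := closedBall_subset_closedBall ha1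
  let d : PLEquiv (cube 3) (closedBall (0 : V) a) :=
    ⟨dg a s, dg a⁻¹ s, pl_clm _ _, pl_clm _ _, fun y hy => mem_closedBall_zero_iff.2 (m1 y hy),
      fun y hy => m2 y (mem_closedBall_zero_iff.1 hy), fun y _ => dg_dg ha0.ne' hs y,
      fun y _ => m3 y⟩
  refine ⟨_, d.trans (e.restrImage sub), ?_, ?_, ?_, ?_⟩
  · show e.f (dg a s 0) = _
    rw [map_zero]
  · have hg : ContinuousWithinAt e.g B (e.f 0) := e.pg.1 _ (e.mf (zero_mem_cube 3))
    have h1 : e.g ⁻¹' closedBall 0 a ∈ 𝓝[B] (e.f 0) := by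
      apply hg
      rw [e.li 0 (zero_mem_cube 3)]
      exact closedBall_mem_nhds _ ha0
    rw [nhdsWithin_eq_nhds.2 hB] at h1
    filter_upwards [h1, hB] with x hx hxB
    exact ⟨e.g x, hx, e.ri x hxB⟩
  · rintro _ ⟨y, hy, rfl⟩
    exact ⟨e.mf (sub hy), hsub ⟨closedBall_subset_ball har hy, sub hy⟩⟩
  · intro A A' hA
    ext x
    constructor
    · rintro ⟨⟨y, hy, rfl⟩, z, hz, hzy⟩
      have := e.injOn hz.1 (sub hy) hzy
      subst this
      refine ⟨dg a⁻¹ s z, ⟨m2 z (mem_closedBall_zero_iff.1 hy), ?_⟩, ?_⟩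
      · rw [← hA a ha0, m3]; exact hz.2
      · show e.f (dg a s (dg a⁻¹ s z)) = _
        rw [m3]
    · rintro ⟨y, hy, rfl⟩
      have h1 : dg a s y ∈ closedBall (0 : V) a := mem_closedBall_zero_iff.2 (m1 y hy.1)
      exact ⟨⟨_, h1, rfl⟩, _, ⟨sub h1, (hA a ha0 y).2 hy.2⟩, rfl⟩

lemma dg_fl {s : ℝ} (hs : |s| = 1) : ∀ a > (0 : ℝ), ∀ y, dg a s y ∈ fl ↔ y ∈ fl := by
  intro a ha y
  have : s ≠ 0 := by rintro rfl; simp at hs
  simp [fl, dg_apply, this, ha.ne']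

lemma dg_up : ∀ a > (0 : ℝ), ∀ y, dg a 1 y ∈ up ↔ y ∈ up := by
  intro a ha y
  simp [up, dg_apply, ha]

/-- relatively open subsets of manifolds are manifolds -/
theorem Mf.inter_open {M dM U : Set V} (h : Mf M dM) (hU : IsOpen U) : Mf (M ∩ U) (dM ∩ U) := by
  obtain ⟨hs, ho, hc⟩ := h
  refine ⟨inter_subset_inter_left _ hs, ?_, ?_⟩
  · convert ho.inter hU using 1
    ext x; simp only [mem_diff, mem_inter_iff]; tauto
  · rintro x ⟨hx, hxU⟩
    obtain ⟨B, e, rfl, hB, h1, h2⟩ := hc x hx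
    obtain ⟨B', e', h0, hB', hsub, hA⟩ := shrink e hB (hU.mem_nhds hxU) 1 (by simp)
    refine ⟨B', e', h0, hB', ?_, ?_⟩
    · rw [← hA up up dg_up, ← h1]
      ext y; constructor
      · rintro ⟨a, b, -⟩; exact ⟨a, (hsub a).1, b⟩
      · rintro ⟨a, -, b⟩; exact ⟨a, b, (hsub a).2⟩
    · rw [← hA fl fl (dg_fl (by simp)), ← h2]
      ext y; constructor
      · rintro ⟨a, b, -⟩; exact ⟨a, (hsub a).1, b⟩
      · rintro ⟨a, -, b⟩; exact ⟨a, b, (hsub a).2⟩

/-- flatness is local -/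
lemma FlatAt.congr {S S' : Set V} {x : V} (h : FlatAt S x) {N : Set V} (hN : N ∈ 𝓝 x)
    (e : N ∩ S = N ∩ S') : FlatAt S' x := by
  obtain ⟨B, c, rfl, hB, h2⟩ := h
  obtain ⟨B', e', h0, hB', hsub, hA⟩ := shrink c hB hN 1 (by simp)
  refine ⟨B', e', h0, hB', ?_⟩
  rw [← hA fl fl (dg_fl (by simp)), ← h2]
  ext y; constructor
  · rintro ⟨a, b⟩
    have : y ∈ N ∩ S := e ▸ ⟨(hsub a).2, b⟩
    exact ⟨a, (hsub a).1, this.2⟩
  · rintro ⟨a, -, b⟩
    have : y ∈ N ∩ S' := e ▸ ⟨(hsub a).2, b⟩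
    exact ⟨a, this.2⟩

lemma cube_split {y : V} : y ∈ upo ∨ y ∈ fl ∨ y ∈ dno := by
  rcases lt_trichotomy (y 2) 0 with h | h | h
  · exact Or.inr (Or.inr h)
  · exact Or.inr (Or.inl h)
  · exact Or.inl h

/-- **recognition of manifolds with boundary** -/
theorem mf_of {M dM : Set V} (hs : dM ⊆ M) (ho : IsOpen (M \ dM))
    (h : ∀ x ∈ dM, FlatAt dM x ∧ (∃ N ∈ 𝓝 x, IsOpen (N \ M)) ∧ x ∈ closure (M \ dM) ∧
      x ∈ closure Mᶜ) : Mf M dM := by
  refine ⟨hs, ho, fun x hx => ?_⟩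
  obtain ⟨⟨B₀, e₀, rfl, hB₀, h₀⟩, ⟨N, hN, hNo⟩, c1, c2⟩ := h x hx
  obtain ⟨B, e, he, hB, hsub, hA⟩ := shrink e₀ hB₀ hN 1 (by simp)
  have h2 : B ∩ dM = e.f '' (cube 3 ∩ fl) := by
    rw [← hA fl fl (dg_fl (by simp)), ← h₀]
    ext y; constructor
    · rintro ⟨a, b⟩; exact ⟨a, (hsub a).1, b⟩
    · rintro ⟨a, -, b⟩; exact ⟨a, b⟩
  rw [← he] at hB c1 c2 ⊢
  have nd : ∀ y ∈ cube 3, y ∉ fl → e.f y ∉ dM := by
    intro y hy hf hd
    have : e.f y ∈ e.f '' (cube 3 ∩ fl) := h2 ▸ ⟨e.mf hy, hd⟩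
    obtain ⟨z, hz, hzy⟩ := this
    exact hf (e.injOn hz.1 hy hzy ▸ hz.2)
  have yd : ∀ y ∈ cube 3, y ∈ fl → e.f y ∈ dM := by
    intro y hy hf
    have : e.f y ∈ B ∩ dM := h2 ▸ ⟨y, ⟨hy, hf⟩, rfl⟩
    exact this.2
  have dich : ∀ A : Set V, Convex ℝ (cube 3 ∩ A) → (∀ y ∈ A, y ∉ fl) →
      (∀ y ∈ cube 3 ∩ A, e.f y ∈ M) ∨ (∀ y ∈ cube 3 ∩ A, e.f y ∉ M) := by
    intro A hA hf
    have hp := hA.isPreconnected.image _ (e.pf.1.mono inter_subset_left)
    have := hp.subset_or_subset ho hNo (disjoint_left.2 fun y a b => b.2 a.1) (by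
      rintro _ ⟨y, hy, rfl⟩
      by_cases hm : e.f y ∈ M
      · exact Or.inl ⟨hm, nd y hy.1 (hf y hy.2)⟩
      · exact Or.inr ⟨(hsub (e.mf hy.1)).2, hm⟩)
    rcases this with h | h
    · exact Or.inl fun y hy => (h ⟨y, hy, rfl⟩).1
    · exact Or.inr fun y hy => (h ⟨y, hy, rfl⟩).2
  have d1 := dich upo convex_upo (fun y hy hf => (ne_of_gt hy) hf)
  have d2 := dich dno convex_dno (fun y hy hf => (ne_of_lt hy) hf)
  obtain ⟨p, hp1, hp2⟩ := mem_closure_iff_nhds.1 c1 B hB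
  obtain ⟨q, hq1, hq2⟩ := mem_closure_iff_nhds.1 c2 B hB
  have gp := e.ri p hp1
  have gq := e.ri q hq1
  rcases d1 with d1 | d1 <;> rcases d2 with d2 | d2
  · exfalso
    apply hq2
    rw [← gq]
    rcases cube_split (y := e.g q) with h | h | h
    · exact d1 _ ⟨e.mg hq1, h⟩
    · exact hs (yd _ (e.mg hq1) h)
    · exact d2 _ ⟨e.mg hq1, h⟩
  · refine ⟨B, e, rfl, hB, ?_, h2⟩
    ext y; constructor
    · rintro ⟨a, b⟩
      refine ⟨e.g y, ⟨e.mg a, ?_⟩, e.ri y a⟩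
      by_contra hn
      exact d2 _ ⟨e.mg a, mem_dno.2 (not_le.1 (mt mem_up.2 hn))⟩ (by rwa [e.ri y a])
    · rintro ⟨z, ⟨hz, hz'⟩, rfl⟩
      refine ⟨e.mf hz, ?_⟩
      rcases eq_or_lt_of_le (show 0 ≤ z 2 from hz') with h | h
      · exact hs (yd z hz h.symm)
      · exact d1 z ⟨hz, h⟩
  · obtain ⟨B', e', h0, hB', hsub', hA'⟩ := shrink e hB hB (-1) (by simp)
    refine ⟨B', e', h0, hB', ?_, ?_⟩
    · rw [← hA' {y | y 2 ≤ 0} up (fun a ha y => by simp [up, dg_apply, ha])]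
      ext y; constructor
      · rintro ⟨a, b⟩
        have a' := (hsub' a).1
        refine ⟨a, e.g y, ⟨e.mg a', ?_⟩, e.ri y a'⟩
        by_contra hn
        exact d1 _ ⟨e.mg a', mem_upo.2 (not_le.1 hn)⟩ (by rwa [e.ri y a'])
      · rintro ⟨a, z, ⟨hz, hz'⟩, rfl⟩
        refine ⟨a, ?_⟩
        rcases eq_or_lt_of_le (show z 2 ≤ 0 from hz') with h | h
        · exact hs (yd z hz h)
        · exact d2 z ⟨hz, h⟩
    · rw [← hA' fl fl (dg_fl (by simp)), ← h2]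
      ext y; constructor
      · rintro ⟨a, b⟩; exact ⟨a, (hsub' a).1, b⟩
      · rintro ⟨a, -, b⟩; exact ⟨a, b⟩
  · exfalso
    rcases cube_split (y := e.g p) with h | h | h
    · exact d1 _ ⟨e.mg hp1, h⟩ (by rw [gp]; exact hp2.1)
    · exact hp2.2 (by rw [← gp]; exact yd _ (e.mg hp1) h)
    · exact d2 _ ⟨e.mg hp1, h⟩ (by rw [gp]; exact hp2.1)

/-! ### Alexander -/

/-- a PL sphere with its standardising homeomorphism -/
theorem sphere_std {E : Type*} [NormedAddCommGroup E] [NormedSpace ℝ E] {Q dQ : Set E}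
    (hQ : IsBall 3 Q dQ) {S : Set V} (b : PLEquiv dQ S) :
    ∃ H : V ≃ₜ V, PLOn H (cube 3) ∧ PLOn H.symm (H '' cube 3) ∧ H '' sph 3 = S := by
  obtain ⟨a, rfl⟩ := hQ
  exact R096.Ar_241.p2_fin S ⟨(a.restrImage sph_subset_cube).trans b⟩

/-- **Alexander extension**: a compact set whose frontier lies in a parametrised PL sphere -/
theorem alex {E : Type*} [NormedAddCommGroup E] [NormedSpace ℝ E] {Q dQ : Set E}
    (hQ : IsBall 3 Q dQ) {S W : Set V} (b : PLEquiv dQ S) (hW : IsCompact W)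
    (hf : frontier W ⊆ S) (hne : ¬ W ⊆ S) :
    ∃ G : PLEquiv Q W, EqOn G.f b.f dQ ∧ IsBall 3 W S := by
  obtain ⟨H, p1, p2, p3⟩ := sphere_std hQ b
  have h := R096.Ar_241.isBall_of_frontier (k := 3) (by norm_num) H p1 p2 hW (by rwa [p3])
    (by rwa [p3])
  rw [p3] at h
  obtain ⟨G, hG, -⟩ := hQ.extend h b
  exact ⟨G, hG, h⟩

end Crest.Agent.X212.Prd34
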