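import Crest.Agent.X212.Prd34.Rng
import Crest.Agent.R096.Gn2_296

/-!
# X212 / T layer: the four-sided torus, solid torus blocks (`k = 1`) (helper34)
-/

set_option autoImplicit false

open Set Metric Topology

namespace Crest.Agent.X212.Prd34

open Crest.Agent.R096.Ce_537 Crest.Agent.X212.Lad50
open Crest.Agent.X212.Sol49 (Tor)

/-- the rectangle `[t,t'] × [c,c+1]` and its boundary -/
def rct (t t' c : ℝ) : Set P := {z | z 0 ∈ Icc t t' ∧ z 1 ∈ Icc c (c + 1)}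
def drct (t t' c : ℝ) : Set P :=
  {z | z ∈ rct t t' c ∧ (z 1 = c ∨ z 1 = c + 1 ∨ z 0 = t ∨ z 0 = t')}

lemma isBall_rct {t t' : ℝ} (h : t < t') (c : ℝ) : IsBall 2 (rct t t' c) (drct t t' c) := by
  have e : rct t t' c = Icc ![t, c] ![t', c + 1] := by
    ext z
    simp only [rct, mem_Icc, Pi.le_def, Fin.forall_fin_two, mem_setOf_eq]
    simp only [Matrix.cons_val_zero, Matrix.cons_val_one]
    tauto
  have := R096.Gn_296.isBall_box (l := ![t, c]) (h := ![t', c + 1]) fun j => by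
    fin_cases j <;> simp [h]
  convert this using 1
  ext z
  simp only [drct, R096.Gp_702.bb, e, mem_setOf_eq, Fin.exists_fin_two]
  simp only [Matrix.cons_val_zero, Matrix.cons_val_one]
  tauto

lemma isClosed_rct (t t' c : ℝ) : IsClosed (rct t t' c) :=
  (isClosed_Icc.preimage (continuous_apply 0)).inter (isClosed_Icc.preimage (continuous_apply 1))

/-- bottom, top and two sides of a tube -/
structure Four (H : V → V) (t t' : ℝ) (B T a a' : P → V) : Prop where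
  lt : t < t'
  cB : Continuous B
  cT : Continuous T
  ca : ContinuousOn a strip
  ca' : ContinuousOn a' strip
  pB : LocPL (fun y => H (B y)) univ
  pT : LocPL (fun y => H (T y)) univ
  pa : LPL (fun y => H (a y)) strip
  pa' : LPL (fun y => H (a' y)) strip
  aB : ∀ s, a ![s, 0] = B ![s, t]
  aT : ∀ s, a ![s, 1] = T ![s, t]
  aB' : ∀ s, a' ![s, 0] = B ![s, t']
  aT' : ∀ s, a' ![s, 1] = T ![s, t']
  fB : ∀ y y' : P, y 1 ∈ Icc t t' → y' 1 ∈ Icc t t' →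
    (H (B y) = H (B y') ↔ y 1 = y' 1 ∧ ∃ m : ℤ, y 0 - y' 0 = m)
  fT : ∀ y y' : P, y 1 ∈ Icc t t' → y' 1 ∈ Icc t t' →
    (H (T y) = H (T y') ↔ y 1 = y' 1 ∧ ∃ m : ℤ, y 0 - y' 0 = m)
  fa : ∀ y ∈ strip, ∀ y' ∈ strip, H (a y) = H (a y') ↔ y 1 = y' 1 ∧ ∃ m : ℤ, y 0 - y' 0 = m
  fa' : ∀ y ∈ strip, ∀ y' ∈ strip, H (a' y) = H (a' y') ↔ y 1 = y' 1 ∧ ∃ m : ℤ, y 0 - y' 0 = m
  BT : ∀ y y', H (B y) ≠ H (T y')
  aa : ∀ y ∈ strip, ∀ y' ∈ strip, H (a y) ≠ H (a' y')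
  ma : ∀ y : P, 0 < y 1 → y 1 < 1 → ∀ y', H (a y) ≠ H (B y') ∧ H (a y) ≠ H (T y')
  ma' : ∀ y : P, 0 < y 1 → y 1 < 1 → ∀ y', H (a' y) ≠ H (B y') ∧ H (a' y) ≠ H (T y')

open Classical in
/-- the parametrisation of the tube -/
noncomputable def frm (c t : ℝ) (B T a a' : P → V) (p : P × ℝ) : V :=
  if p.1 1 = c then B ![p.2, p.1 0] else if p.1 1 = c + 1 then T ![p.2, p.1 0] else
    if p.1 0 = t then a ![p.2, p.1 1 - c] else a' ![p.2, p.1 1 - c]

/-- the band `t ≤ y 1 ≤ t'` -/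
def band (t t' : ℝ) : Set P := {y | y 1 ∈ Icc t t'}

namespace Four

variable {H : V → V} {c t t' : ℝ} {B T a a' : P → V}

lemma frm_B {p : P × ℝ} (h : p.1 1 = c) : frm c t B T a a' p = B ![p.2, p.1 0] := if_pos h

lemma frm_T {p : P × ℝ} (h : p.1 1 = c + 1) : frm c t B T a a' p = T ![p.2, p.1 0] := by
  unfold frm; rw [if_neg (by linarith), if_pos h]

lemma frm_a (F : Four H t t' B T a a') {p : P × ℝ} (h : p.1 0 = t) :
    frm c t B T a a' p = a ![p.2, p.1 1 - c] := by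
  by_cases h1 : p.1 1 = c
  · rw [frm_B h1, h1, sub_self, F.aB, h]
  by_cases h2 : p.1 1 = c + 1
  · rw [frm_T h2, h2, add_sub_cancel_left, F.aT, h]
  · unfold frm; rw [if_neg h1, if_neg h2, if_pos h]

lemma frm_a' (F : Four H t t' B T a a') {p : P × ℝ} (h : p.1 0 = t') :
    frm c t B T a a' p = a' ![p.2, p.1 1 - c] := by
  by_cases h1 : p.1 1 = c
  · rw [frm_B h1, h1, sub_self, F.aB', h]
  by_cases h2 : p.1 1 = c + 1
  · rw [frm_T h2, h2, add_sub_cancel_left, F.aT', h]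
  · unfold frm; rw [if_neg h1, if_neg h2, if_neg (by linarith [F.lt])]

lemma mem_strip {p : P × ℝ} (h : p.1 ∈ rct t t' c) : (![p.2, p.1 1 - c] : P) ∈ strip :=
  ⟨by simpa using h.2.1, by simpa using (by linarith [h.2.2] : p.1 1 - c ≤ 1)⟩

lemma img (F : Four H t t' B T a a') (c : ℝ) : frm c t B T a a' '' (drct t t' c ×ˢ univ) =
    B '' band t t' ∪ T '' band t t' ∪ a '' strip ∪ a' '' strip := by
  have eta : ∀ y : P, ![y 0, y 1] = y := fun y => by funext i; fin_cases i <;> rfl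
  apply Subset.antisymm
  · rintro _ ⟨p, ⟨⟨hp, h | h | h | h⟩, -⟩, rfl⟩
    · exact Or.inl (Or.inl (Or.inl ⟨_, hp.1, (frm_B h).symm⟩))
    · exact Or.inl (Or.inl (Or.inr ⟨_, hp.1, (frm_T h).symm⟩))
    · exact Or.inl (Or.inr ⟨_, mem_strip hp, (F.frm_a h).symm⟩)
    · exact Or.inr ⟨_, mem_strip hp, (F.frm_a' h).symm⟩
  · rintro _ (((⟨y, hy, rfl⟩ | ⟨y, hy, rfl⟩) | ⟨y, hy, rfl⟩) | ⟨y, hy, rfl⟩)
    · exact ⟨(![y 1, c], y 0), ⟨⟨⟨hy, le_rfl, by simp⟩, Or.inl rfl⟩, trivial⟩,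
        (frm_B rfl).trans (congrArg B (eta y))⟩
    · exact ⟨(![y 1, c + 1], y 0), ⟨⟨⟨hy, by simp, le_rfl⟩, Or.inr (Or.inl rfl)⟩, trivial⟩,
        (frm_T rfl).trans (congrArg T (eta y))⟩
    · refine ⟨(![t, c + y 1], y 0), ⟨⟨⟨⟨le_rfl, F.lt.le⟩, by simpa using hy.1, by simpa using hy.2⟩,
        Or.inr (Or.inr (Or.inl rfl))⟩, trivial⟩, (F.frm_a rfl).trans (congrArg a ?_)⟩
      simpa using eta y
    · refine ⟨(![t', c + y 1], y 0), ⟨⟨⟨⟨F.lt.le, le_rfl⟩, by simpa using hy.1, by simpa using hy.2⟩,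
        Or.inr (Or.inr (Or.inr rfl))⟩, trivial⟩, (F.frm_a' rfl).trans (congrArg a' ?_)⟩
      simpa using eta y

lemma glue (F : Four H t t' B T a a') (c : ℝ) (Q : ((P × ℝ) → V) → Set (P × ℝ) → Prop) (G : V → V)
    (un : ∀ f A A', Q f A → Q f A' → IsClosed A → IsClosed A' → Q f (A ∪ A'))
    (cg : ∀ f g A A', Q f A → A' ⊆ A → EqOn g f A' → Q g A')
    (q1 : Q (fun p => G (B ![p.2, p.1 0])) univ) (q2 : Q (fun p => G (T ![p.2, p.1 0])) univ)
    (q3 : Q (fun p => G (a ![p.2, p.1 1 - c])) (rct t t' c ×ˢ univ))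
    (q4 : Q (fun p => G (a' ![p.2, p.1 1 - c])) (rct t t' c ×ˢ univ)) :
    Q (fun p => G (frm c t B T a a' p)) (drct t t' c ×ˢ univ) := by
  have cl : ∀ (i : Fin 2) (s : ℝ), IsClosed (rct t t' c ×ˢ (univ : Set ℝ) ∩ {p | p.1 i = s}) :=
    fun i s => ((isClosed_rct _ _ _).prod isClosed_univ).inter
      (isClosed_eq (by fun_prop) continuous_const)
  refine cg _ _ _ _ (un _ _ _ (cg _ _ _ _ q1 (subset_univ _) fun p hp => ?_)
    (un _ _ _ (cg _ _ _ _ q2 (subset_univ _) fun p hp => ?_)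
      (un _ _ _ (cg _ _ _ _ q3 inter_subset_left fun p hp => ?_)
        (cg _ _ _ _ q4 inter_subset_left fun p hp => ?_) (cl 0 t) (cl 0 t'))
      (cl 1 (c + 1)) ((cl 0 t).union (cl 0 t'))) (cl 1 c)
    ((cl 1 (c + 1)).union ((cl 0 t).union (cl 0 t')))) ?_ fun _ _ => rfl
  · exact congrArg G (frm_B hp.2)
  · exact congrArg G (frm_T hp.2)
  · exact congrArg G (F.frm_a hp.2)
  · exact congrArg G (F.frm_a' hp.2)
  · rintro p ⟨⟨hp, h | h | h | h⟩, -⟩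
    exacts [Or.inl ⟨⟨hp, trivial⟩, h⟩, Or.inr (Or.inl ⟨⟨hp, trivial⟩, h⟩),
      Or.inr (Or.inr (Or.inl ⟨⟨hp, trivial⟩, h⟩)), Or.inr (Or.inr (Or.inr ⟨⟨hp, trivial⟩, h⟩))]

lemma cont (F : Four H t t' B T a a') (c : ℝ) :
    ContinuousOn (frm c t B T a a') (drct t t' c ×ˢ univ) := by
  have c1 : Continuous fun p : P × ℝ => (![p.2, p.1 0] : P) := by fun_prop
  have c2 : Continuous fun p : P × ℝ => (![p.2, p.1 1 - c] : P) := by fun_prop
  exact F.glue c ContinuousOn id (fun f A A' h h' => h.union_of_isClosed h')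
    (fun f g A A' h hs e => (h.mono hs).congr e) (F.cB.comp c1).continuousOn
    (F.cT.comp c1).continuousOn (F.ca.comp c2.continuousOn fun p hp => mem_strip hp.1)
    (F.ca'.comp c2.continuousOn fun p hp => mem_strip hp.1)

theorem tor (F : Four H t t' B T a a') (c : ℝ) :
    Tor (rct t t' c) (drct t t' c) fun p => H (frm c t B T a a' p) := by
  have c1 : ∀ A, LPL (fun p : P × ℝ => (![p.2, p.1 0] : P)) A := fun A =>
    lpl_of_plOn (pl_vec2 (pl_snd (plOn_id _)) (pl_apply (pl_fst (plOn_id _)) 0))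
  have c2 : ∀ A, LPL (fun p : P × ℝ => (![p.2, p.1 1 - c] : P)) A := fun A =>
    lpl_of_plOn (pl_vec2 (pl_snd (plOn_id _))
      (pl_sub (pl_apply (pl_fst (plOn_id _)) 1) (plOn_const _ _)))
  refine ⟨isBall_rct F.lt c, F.glue c LPL H (fun f A A' h h' => h.union h')
    (fun f g A A' h hs e => (h.mono hs).congr e)
    ((lpl_of_locPL F.pB).comp (c1 _) (mapsTo_univ _ _))
    ((lpl_of_locPL F.pT).comp (c1 _) (mapsTo_univ _ _))
    (F.pa.comp (c2 _) fun p hp => mem_strip hp.1) (F.pa'.comp (c2 _) fun p hp => mem_strip hp.1), ?_⟩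
  have cs : ∀ p ∈ drct t t' c ×ˢ (univ : Set ℝ), p.1 1 = c ∨ p.1 1 = c + 1 ∨
      (0 < p.1 1 - c ∧ p.1 1 - c < 1 ∧ (p.1 0 = t ∨ p.1 0 = t')) := by
    rintro p ⟨⟨hp, h⟩, -⟩
    by_cases h1 : p.1 1 = c
    · exact Or.inl h1
    by_cases h2 : p.1 1 = c + 1
    · exact Or.inr (Or.inl h2)
    exact Or.inr (Or.inr ⟨sub_pos.2 (lt_of_le_of_ne hp.2.1 (Ne.symm h1)),
      by linarith [lt_of_le_of_ne hp.2.2 h2], (h.resolve_left h1).resolve_left h2⟩)
  have ext : ∀ {z z' : P}, z = z' ↔ z 0 = z' 0 ∧ z 1 = z' 1 := fun {z z'} =>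
    ⟨fun h => h ▸ ⟨rfl, rfl⟩, fun h => by funext i; fin_cases i; exacts [h.1, h.2]⟩
  have lt := F.lt
  intro p hp q hq
  have sp := mem_strip hp.1.1
  have sq := mem_strip hq.1.1
  have no : ∀ {X : Prop} {i : Fin 2}, ¬ X → p.1 i ≠ q.1 i →
      (X ↔ p.1 = q.1 ∧ ∃ m : ℤ, p.2 - q.2 = m) := fun h1 h2 =>
    ⟨fun h => (h1 h).elim, fun h => (h2 (by rw [h.1])).elim⟩
  rcases cs p hp with h | h | ⟨h1, h2, h | h⟩ <;> rcases cs q hq with k | k | ⟨k1, k2, k | k⟩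
  · rw [frm_B h, frm_B k, F.fB _ _ hp.1.1.1 hq.1.1.1, ext, h, k]; simp
  · rw [frm_B h, frm_T k]; exact no (i := 1) (F.BT _ _) (by linarith)
  · rw [frm_B h, F.frm_a k]; exact no (i := 1) (F.ma _ k1 k2 _).1.symm (by linarith)
  · rw [frm_B h, F.frm_a' k]; exact no (i := 1) (F.ma' _ k1 k2 _).1.symm (by linarith)
  · rw [frm_T h, frm_B k]; exact no (i := 1) (F.BT _ _).symm (by linarith)
  · rw [frm_T h, frm_T k, F.fT _ _ hp.1.1.1 hq.1.1.1, ext, h, k]; simp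
  · rw [frm_T h, F.frm_a k]; exact no (i := 1) (F.ma _ k1 k2 _).2.symm (by linarith)
  · rw [frm_T h, F.frm_a' k]; exact no (i := 1) (F.ma' _ k1 k2 _).2.symm (by linarith)
  · rw [F.frm_a h, frm_B k]; exact no (i := 1) (F.ma _ h1 h2 _).1 (by linarith)
  · rw [F.frm_a h, frm_T k]; exact no (i := 1) (F.ma _ h1 h2 _).2 (by linarith)
  · rw [F.frm_a h, F.frm_a k, F.fa _ sp _ sq, ext, h, k]; simp
  · rw [F.frm_a h, F.frm_a' k]; exact no (i := 0) (F.aa _ sp _ sq) (by linarith)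
  · rw [F.frm_a' h, frm_B k]; exact no (i := 1) (F.ma' _ h1 h2 _).1 (by linarith)
  · rw [F.frm_a' h, frm_T k]; exact no (i := 1) (F.ma' _ h1 h2 _).2 (by linarith)
  · rw [F.frm_a' h, F.frm_a k]; exact no (i := 0) (F.aa _ sq _ sp).symm (by linarith)
  · rw [F.frm_a' h, F.frm_a' k, F.fa' _ sp _ sq, ext, h, k]; simp

/-- **the tube is filled by a solid torus** -/
theorem fill {J : Finset (Fin 3)} (F : Four H t t' B T a a') (hF : FlatStmt) (hS : SolidStmt)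
    (hH : Per J H) (c : ℝ) {O Z : Set V} (hO : IsOpen O) (hne : O.Nonempty)
    (hZ : Z = O ∪ (B '' band t t' ∪ T '' band t t' ∪ a '' strip ∪ a' '' strip))
    (hc : IsCompact (H '' Z)) {r : V → V} (cr : Continuous r) (r1 : ∀ x, r x ∈ Z)
    (r2 : ∀ x ∈ Z, r x = x) :
    ∃ G : P × ℝ → V, LPL G (rct t t' c ×ˢ univ) ∧
      (∀ p ∈ rct t t' c ×ˢ (univ : Set ℝ), (p.1 1 = c → G p = H (B ![p.2, p.1 0])) ∧
        (p.1 1 = c + 1 → G p = H (T ![p.2, p.1 0])) ∧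
        (p.1 0 = t → G p = H (a ![p.2, p.1 1 - c])) ∧
        (p.1 0 = t' → G p = H (a' ![p.2, p.1 1 - c]))) ∧
      (∀ p ∈ rct t t' c ×ˢ (univ : Set ℝ), ∀ p' ∈ rct t t' c ×ˢ (univ : Set ℝ),
        G p = G p' ↔ p.1 = p'.1 ∧ ∃ m : ℤ, p.2 - p'.2 = m) ∧
      G '' (rct t t' c ×ˢ univ) = H '' Z := by
  rw [← F.img c] at hZ
  subst hZ
  obtain ⟨G, g1, g2, g3, g4⟩ := solup hF hS hH (F.cont c) (F.tor c) hO hne hc cr r1
    fun p hp => r2 _ (Or.inr ⟨p, hp, rfl⟩)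
  refine ⟨G, g1, fun p hp => ⟨fun h => ?_, fun h => ?_, fun h => ?_, fun h => ?_⟩, g3, g4⟩
  · rw [g2 p ⟨⟨hp.1, Or.inl h⟩, trivial⟩, frm_B h]
  · rw [g2 p ⟨⟨hp.1, Or.inr (Or.inl h)⟩, trivial⟩, frm_T h]
  · rw [g2 p ⟨⟨hp.1, Or.inr (Or.inr (Or.inl h))⟩, trivial⟩, F.frm_a h]
  · rw [g2 p ⟨⟨hp.1, Or.inr (Or.inr (Or.inr h))⟩, trivial⟩, F.frm_a' h]

end Four

variable {K J : Finset (Fin 3)} {H : V → V} {c δ : ℝ} {u u' : P → V}

lemma Rung.fib (h2 : (2 : Fin 3) ∉ J) (hH : Per J H) (hu : Rung K J H c δ u) (y y' : P) :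
    H (u y) = H (u y') ↔ lv 0 (y - y') ∈ lat J := by
  constructor
  · intro e
    have hl := (hH.fib _ _).1 e
    have el : lv 0 (pr (u y - u y')) = u y - u y' := by rw [← (hl 2).2 h2, lv_pr]
    have := hu.eqv y' (pr (u y - u y')) (by rwa [el])
    rw [el, add_sub_cancel] at this
    rw [← hu.inj this, add_sub_cancel_left, el]
    exact hl
  · intro hl
    have := hu.eqv y' (y - y') hl
    rw [add_sub_cancel] at this
    rw [this, hH.add _ hl]

lemma Rung.ne_of_not_mem (h2 : (2 : Fin 3) ∉ J) (hH : Per J H) (hu : Rung K J H c δ u) {x : V}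
    (hx : x ∉ range u) (y : P) : H x ≠ H (u y) := fun e =>
  hx (hH.sat (fun _ hl _ hw => add_mem_range h2 hu hl hw) x ⟨_, ⟨y, rfl⟩, e.symm⟩)

lemma Rung.up_of_out (h2 : (2 : Fin 3) ∉ K) (hu : Rung K J H c δ u) (hs : SepH u) {x : V}
    (hx : x ∈ out K) (h : c ≤ x 2) : x ∈ Up u ∪ range u := by
  rcases hs.cov x with a | a | a
  · exact Or.inl a
  · have e : x 2 = c := le_antisymm (le_of_out_dn h2 hu hs hx (Or.inl a)) h
    exact Or.inr ⟨pr x, by rw [hu.bd _ (by rwa [← e, lv_pr]), ← e, lv_pr]⟩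
  · exact Or.inr a

lemma Rung.dn_of_out (h2 : (2 : Fin 3) ∉ K) (hu : Rung K J H c δ u) (hs : SepH u) {x : V}
    (hx : x ∈ out K) (h : x 2 ≤ c) : x ∈ Dn u ∪ range u := by
  rcases hs.cov x with a | a | a
  · have e : x 2 = c := le_antisymm h (le_of_out_up h2 hu hs hx (Or.inl a))
    exact Or.inr ⟨pr x, by rw [hu.bd _ (by rwa [← e, lv_pr]), ← e, lv_pr]⟩
  · exact Or.inl a
  · exact Or.inr a

lemma mem_lat_one {l : V} : l ∈ lat {1} ↔ l 0 = 0 ∧ l 2 = 0 ∧ ∃ m : ℤ, l 1 = m := by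
  simp [lat, Fin.forall_fin_succ]; tauto

lemma mem_slab_zero {x : V} : x ∈ slab {0} ↔ |x 0| ≤ 1 := by simp [slab]

lemma mem_out_zero {x : V} : x ∈ out {0} ↔ 1 ≤ |x 0| := by simp [out]

/-- **solid torus blocks** -/
theorem blk_one (hF : FlatStmt) (hS : SolidStmt) : BlkStmt {0} {1} := by
  intro H hH hp c u u' hu hu'
  have p := (hu.pln3 hF (by decide) hH).toPln2
  have p' := (hu'.pln3 hF (by decide) hH).toPln2
  have h2 : (2 : Fin 3) ∉ ({1} : Finset (Fin 3)) := by decide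
  have k2 : (2 : Fin 3) ∉ ({0} : Finset (Fin 3)) := by decide
  have hc : c + 1 / 3 ≤ c + 1 - 1 / 3 := by linarith
  let sw : P → P := fun y => ![y 1, y 0]
  let w : ℝ → P → V := fun e y => ![e, y 0, c + y 1]
  have psw : PLOn sw univ := pl_vec2 (pl_coord 1 _) (pl_coord 0 _)
  have csw : Continuous sw := continuousOn_univ.1 psw.1
  have pw : ∀ e, PLOn (w e) strip := fun e =>
    pl_vec3 (plOn_const _ _) (pl_coord 0 _) (pl_add (plOn_const _ _) (pl_coord 1 _))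
  have wo : ∀ e, |e| = 1 → ∀ y, w e y ∈ out {0} := fun e he y => mem_out_zero.2 he.ge
  have fu : ∀ {v : P → V} {d : ℝ}, Rung {0} {1} H d (1 / 3) v → ∀ y y' : P,
      (H (v (sw y)) = H (v (sw y')) ↔ y 1 = y' 1 ∧ ∃ m : ℤ, y 0 - y' 0 = m) := fun hv y y' => by
    rw [hv.fib h2 hH, mem_lat_one]; simp [sw, sub_eq_zero]
  have fw : ∀ e, ∀ y ∈ strip, ∀ y' ∈ strip,
      (H (w e y) = H (w e y') ↔ y 1 = y' 1 ∧ ∃ m : ℤ, y 0 - y' 0 = m) := fun e y _ y' _ => by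
    rw [hH.fib, mem_lat_one]; simp [w, sub_eq_zero]
  have mw : ∀ e, |e| = 1 → ∀ y : P, 0 < y 1 → y 1 < 1 → ∀ y',
      H (w e y) ≠ H (u (sw y')) ∧ H (w e y) ≠ H (u' (sw y')) := fun e he y h0 h1 y' => by
    refine ⟨hu.ne_of_not_mem h2 hH ?_ _, hu'.ne_of_not_mem h2 hH ?_ _⟩
    · rintro ⟨z, hz⟩
      have : c = c + y 1 := congrFun ((rung_out hu (hz ▸ wo e he y)).symm.trans hz) 2
      linarith
    · rintro ⟨z, hz⟩
      have : c + 1 = c + y 1 := congrFun ((rung_out hu' (hz ▸ wo e he y)).symm.trans hz) 2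
      linarith
  have bw : ∀ {v : P → V} {d : ℝ}, Rung {0} {1} H d (1 / 3) v → ∀ e σ : ℝ, |e| = 1 → c + σ = d →
      ∀ s, w e ![s, σ] = v (sw ![s, e]) := fun hv e σ he hd s => by
    rw [hv.bd (sw ![s, e]) (mem_out_zero.2 he.ge), ← hd]; rfl
  have F : Four H (-1) 1 (fun y => u (sw y)) (fun y => u' (sw y)) (w (-1)) (w 1) :=
    ⟨by norm_num, hu.cont.comp csw, hu'.cont.comp csw, (pw _).1, (pw _).1,
      locPL_comp (g := fun y => H (u y)) hu.pl (locPL_of_plOn psw _) (mapsTo_univ _ _),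
      locPL_comp (g := fun y => H (u' y)) hu'.pl (locPL_of_plOn psw _) (mapsTo_univ _ _),
      (lpl_of_locPL hp).comp (lpl_of_plOn (pw _)) fun y _ => out_subset_rim _ (wo _ (by simp) y),
      (lpl_of_locPL hp).comp (lpl_of_plOn (pw _)) fun y _ => out_subset_rim _ (wo _ (by simp) y),
      bw hu _ _ (by simp) (by simp), bw hu' _ _ (by simp) rfl, bw hu _ _ (by simp) (by simp),
      bw hu' _ _ (by simp) rfl, fun y y' _ _ => fu hu y y', fun y y' _ _ => fu hu' y y', fw _, fw _,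
      fun y y' => hu'.ne_of_not_mem h2 hH (Pln.Dn_sub (hu.sub_Dn hu' hc _)) _,
      fun y _ y' _ e => by
        have : (-1 : ℝ) - 1 = 0 := (mem_lat_one.1 ((hH.fib _ _).1 e)).1
        linarith,
      mw _ (by simp), mw _ (by simp)⟩
  have ob : ∀ x ∈ slab {0}, x ∈ out {0} → c ≤ x 2 → x 2 ≤ c + 1 → x ∈ Blk {0} u u' :=
    fun x a b d e => ⟨⟨a, hu.up_of_out k2 p.sepH b d⟩, hu'.dn_of_out k2 p'.sepH b e⟩
  have xw : ∀ x : V, x = w (x 0) ![x 1, x 2 - c] := fun x => by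
    funext i; fin_cases i <;> simp [w]
  have ysw : ∀ y : P, sw (sw y) = y := fun y => by funext i; fin_cases i <;> rfl
  obtain ⟨r, cr, r1, r2⟩ := p.exists_retr p' (by rintro _ ⟨y, rfl⟩; exact Or.inl (hu.sub_Up hu' hc y))
  let cl : V → V := fun x => ![max (-1) (min 1 (x 0)), x 1, x 2]
  have cl1 : ∀ x ∈ slab {0}, cl x = x := fun x hx => by
    have := abs_le.1 (mem_slab_zero.1 hx)
    funext i; fin_cases i <;> simp [cl, min_eq_right this.2, max_eq_right this.1]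
  obtain ⟨G, g1, g2, g3, g4⟩ := F.fill hF hS hH c (O := (out {0})ᶜ ∩ (Up u ∩ Dn u'))
    (Z := Blk {0} u u') ((isClosed_out _).isOpen_compl.inter (p.isOpen_Up.inter p'.isOpen_Dn))
    ⟨lv (c + 1 / 2) 0, by simp [mem_out_zero], mem_up_of_le hu (by simp; linarith),
      mem_dn_of_le hu' (by simp; linarith)⟩ (by
      apply Subset.antisymm
      · intro x hx
        by_cases ho : x ∈ out {0}
        · have b1 := le_of_out_up k2 hu p.sepH ho hx.1.2
          have b2 := le_of_out_dn k2 hu' p'.sepH ho hx.2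
          have st : (![x 1, x 2 - c] : P) ∈ strip :=
            ⟨by simpa using b1, by simpa using (by linarith : x 2 - c ≤ 1)⟩
          rcases (abs_eq zero_le_one).1 (le_antisymm (mem_slab_zero.1 hx.1.1) (mem_out_zero.1 ho))
            with h | h
          · exact Or.inr (Or.inr ⟨_, st, by rw [← h]; exact (xw x).symm⟩)
          · exact Or.inr (Or.inl (Or.inr ⟨_, st, by rw [← h]; exact (xw x).symm⟩))
        rcases hx.1.2 with h | ⟨y, rfl⟩
        · rcases hx.2 with h' | ⟨y, rfl⟩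
          · exact Or.inl ⟨ho, h, h'⟩
          · exact Or.inr (Or.inl (Or.inl (Or.inr ⟨sw y,
              abs_le.1 (mem_slab_zero.1 (lv_mem_slab hu' hx.1.1)), congrArg u' (ysw y)⟩)))
        · exact Or.inr (Or.inl (Or.inl (Or.inl ⟨sw y,
            abs_le.1 (mem_slab_zero.1 (lv_mem_slab hu hx.1.1)), congrArg u (ysw y)⟩)))
      · rintro x (h | ((⟨y, hy, rfl⟩ | ⟨y, hy, rfl⟩) | ⟨y, hy, rfl⟩) | ⟨y, hy, rfl⟩)
        · exact ⟨⟨mem_slab_of_not_mem h.1, Or.inl h.2.1⟩, Or.inl h.2.2⟩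
        · exact ⟨⟨rung_mem_slab hu (mem_slab_zero.2 (abs_le.2 hy)), Or.inr ⟨_, rfl⟩⟩,
            Or.inl (hu.sub_Dn hu' hc _)⟩
        · exact ⟨⟨rung_mem_slab hu' (mem_slab_zero.2 (abs_le.2 hy)), Or.inl (hu.sub_Up hu' hc _)⟩,
            Or.inr ⟨_, rfl⟩⟩
        · exact ob _ (mem_slab_zero.2 (by simp [w])) (wo _ (by simp) y) (by simpa [w] using hy.1)
            (by simpa [w] using hy.2)
        · exact ob _ (mem_slab_zero.2 (by simp [w])) (wo _ (by simp) y) (by simpa [w] using hy.1)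
            (by simpa [w] using hy.2))
    (isCompact_blk hF (by decide) (by decide) hH hu hu') (r := fun x => cl (r x))
    ((by fun_prop : Continuous cl).comp cr) (fun x => by
      by_cases hs : r x ∈ slab {0}
      · rw [cl1 _ hs]; exact ⟨⟨hs, (r1 x).1⟩, (r1 x).2⟩
      · have ho := mem_out_of_not_mem hs
        have e : |cl (r x) 0| = 1 := by
          show |max (-1) (min 1 (r x 0))| = 1
          rcases le_abs.1 (mem_out_zero.1 ho) with h | h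
          · rw [min_eq_left h]; norm_num
          · rw [max_eq_left ((min_le_right _ _).trans (by linarith))]; norm_num
        have b1 := le_of_out_up k2 hu p.sepH ho (r1 x).1
        have b2 := le_of_out_dn k2 hu' p'.sepH ho (r1 x).2
        exact ob _ (mem_slab_zero.2 e.le) (mem_out_zero.2 e.ge) b1 b2)
    fun x hx => by rw [r2 x ⟨hx.1.2, hx.2⟩, cl1 x hx.1.1]
  let κ : V → P × ℝ := fun x => (![x 0, x 2], x 1)
  have mκ : ∀ x, x ∈ Lay {0} c ↔ κ x ∈ rct (-1) 1 c ×ˢ (univ : Set ℝ) := fun x => by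
    simp [Lay, rct, κ, mem_slab_zero, abs_le]
  refine ⟨fun x => G (κ x), g1.comp (lpl_of_plOn (pl_prod (pl_vec2 (pl_coord 0 _) (pl_coord 2 _))
    (pl_coord 1 _))) fun x hx => (mκ x).1 hx, fun x hx h => (g2 _ ((mκ x).1 hx)).1 h,
    fun x hx h => (g2 _ ((mκ x).1 hx)).2.1 h, fun x hx ho => ?_, fun x hx y hy => ?_, ?_⟩
  · rcases (abs_eq zero_le_one).1 (le_antisymm (mem_slab_zero.1 hx.1) (mem_out_zero.1 ho))
      with h | h
    · rw [(g2 _ ((mκ x).1 hx)).2.2.2 h, ← h]; exact congrArg H (xw x).symm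
    · rw [(g2 _ ((mκ x).1 hx)).2.2.1 h, ← h]; exact congrArg H (xw x).symm
  · rw [g3 _ ((mκ x).1 hx) _ ((mκ y).1 hy), mem_lat_one]
    simp [κ, sub_eq_zero, and_assoc]
  · rw [← g4]
    apply Subset.antisymm
    · rintro _ ⟨x, hx, rfl⟩; exact ⟨_, (mκ x).1 hx, rfl⟩
    · rintro _ ⟨q, hq, rfl⟩
      have e : κ ![q.1 0, q.2, q.1 1] = q := by
        refine Prod.ext ?_ rfl
        funext i; fin_cases i <;> rfl
      exact ⟨_, (mκ _).2 (e.symm ▸ hq), congrArg G e⟩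

end Crest.Agent.X212.Prd34
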