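import Crest.Agent.X212.Prd34.Zp

/-!
# X212 / T layer: the block between two tori is a product (`k = 0`) (helper34)
-/

set_option autoImplicit false

open Set Metric Topology

namespace Crest.Agent.X212.Prd34

open Crest.Agent.R096.Ce_537 Crest.Agent.X212.Lad50

/-- the closed region between two vertical annuli -/
def sub (u u' : P → V) (t t' : ℝ) (a a' : P → V) : Set V :=
  Up (zp u u' t a) ∩ Dn (zp u u' t' a') ∪
    (u '' band t t' ∪ u' '' band t t' ∪ a '' strip ∪ a' '' strip)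

variable {H : V → V} {c t t' : ℝ} {u u' a a' : P → V}

namespace Str

lemma four (S : Str H u u' t a) (S' : Str H u u' t' a') (C : Ctx H c u u') (h : t < t')
    (h1 : t' - t < 1) (hd : ∀ y ∈ strip, ∀ y' ∈ strip, H (a y) ≠ H (a' y')) :
    Four H t t' u u' a a' := by
  have h2 : (2 : Fin 3) ∉ ({0, 1} : Finset (Fin 3)) := by decide
  have fu : ∀ {v : P → V} {d : ℝ}, Rung ∅ {0, 1} H d (1 / 3) v → ∀ y y' : P, y 1 ∈ Icc t t' →
      y' 1 ∈ Icc t t' → (H (v y) = H (v y') ↔ y 1 = y' 1 ∧ ∃ m : ℤ, y 0 - y' 0 = m) := by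
    intro v d hv y y' hy hy'
    rw [hv.fib h2 C.hH, mem_lat_two]
    constructor
    · rintro ⟨k, m, e⟩
      have e1 : y 1 - y' 1 = m := congrFun e 1
      have : |m| < 1 := by
        have : |(m : ℝ)| < 1 := by
          rw [← e1]; exact abs_lt.2 ⟨by linarith [hy.1, hy'.2], by linarith [hy.2, hy'.1]⟩
        exact_mod_cast this
      rw [Int.abs_lt_one_iff.1 this] at e1
      exact ⟨sub_eq_zero.1 (by simpa using e1), k, congrFun e 0⟩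
    · rintro ⟨e, k, hk⟩
      exact ⟨k, 0, by funext i; fin_cases i <;> simp [hk, e]⟩
  have ma : ∀ {s : ℝ} {b : P → V}, Str H u u' s b → ∀ y : P, 0 < y 1 → y 1 < 1 → ∀ y',
      H (b y) ≠ H (u y') ∧ H (b y) ≠ H (u' y') := fun R y h0 h1 y' =>
    ⟨C.hu.ne_of_not_mem h2 C.hH (Pln.Up_sub (R.mid y h0 h1).1) _,
      C.hu'.ne_of_not_mem h2 C.hH (Pln.Dn_sub (R.mid y h0 h1).2) _⟩
  exact ⟨h, C.hu.cont, C.hu'.cont, S.cont, S'.cont, C.hu.pl, C.hu'.pl, S.pl, S'.pl, S.bot, S.top,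
    S'.bot, S'.top, fu C.hu, fu C.hu', S.fib, S'.fib,
    fun y y' => C.hu'.ne_of_not_mem h2 C.hH (Pln.Dn_sub (C.ud y)) _, hd, ma S, ma S'⟩

lemma mono (S : Str H u u' t a) (S' : Str H u u' t' a') (C : Ctx H c u u') (h : t < t')
    (hd : ∀ y ∈ strip, ∀ y' ∈ strip, a y ≠ a' y') :
    Dn (zp u u' t a) ⊆ Dn (zp u u' t' a') ∧ Up (zp u u' t' a') ⊆ Up (zp u u' t a) := by
  have h1 := (S.pln C).toPln2.Dn_mono (S'.pln C).toPln2 (S.le S' C h hd)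
  exact ⟨h1, (S.pln C).toPln2.Up_mono (S'.pln C).toPln2
    ((S.pln C).toPln2.le_Dn (S'.pln C).toPln2 h1)⟩

lemma memU (S : Str H u u' t a) (S' : Str H u u' t' a') (C : Ctx H c u u') (h : t < t') {y : P}
    (hy : u y ∈ sub u u' t t' a a') : y 1 ∈ Icc t t' := by
  rcases hy with k | ((⟨w, hw, e⟩ | ⟨w, hw, e⟩) | ⟨w, hw, e⟩) | ⟨w, hw, e⟩
  · exact (Pln.Up_sub (S.Up_u C k.1) ⟨y, rfl⟩).elim
  · exact C.hu.inj e ▸ hw
  · exact (C.ne _ _ e.symm).elim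
  · rw [(S.eq_u C hw e).2]; exact ⟨le_rfl, h.le⟩
  · rw [(S'.eq_u C hw e).2]; exact ⟨h.le, le_rfl⟩

lemma memU' (S : Str H u u' t a) (S' : Str H u u' t' a') (C : Ctx H c u u') (h : t < t') {y : P}
    (hy : u' y ∈ sub u u' t t' a a') : y 1 ∈ Icc t t' := by
  rcases hy with k | ((⟨w, hw, e⟩ | ⟨w, hw, e⟩) | ⟨w, hw, e⟩) | ⟨w, hw, e⟩
  · exact (Pln.Dn_sub (S'.Dn_u' C k.2) ⟨y, rfl⟩).elim
  · exact (C.ne _ _ e).elim
  · exact C.hu'.inj e ▸ hw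
  · rw [(S.eq_u' C hw e).2]; exact ⟨le_rfl, h.le⟩
  · rw [(S'.eq_u' C hw e).2]; exact ⟨h.le, le_rfl⟩

lemma between (S : Str H u u' t a) (S' : Str H u u' t' a') (C : Ctx H c u u') (h : t < t')
    (hd : ∀ y ∈ strip, ∀ y' ∈ strip, a y ≠ a' y') {x : V} (hx : x ∈ sub u u' t t' a a') :
    x ∉ Dn (zp u u' t a) ∧ x ∉ Up (zp u u' t' a') := by
  obtain ⟨m1, m2⟩ := S.mono S' C h hd
  have d := disjoint_left.1 (S.pln C).toPln.disjoint
  have d' := disjoint_left.1 (S'.pln C).toPln.disjoint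
  have k1 : x ∈ range (zp u u' t a) → x ∉ Dn (zp u u' t a) ∧ x ∉ Up (zp u u' t' a') :=
    fun k => ⟨fun h => Pln.Dn_sub h k, fun h => Pln.Up_sub (m2 h) k⟩
  have k2 : x ∈ range (zp u u' t' a') → x ∉ Dn (zp u u' t a) ∧ x ∉ Up (zp u u' t' a') :=
    fun k => ⟨fun h => Pln.Dn_sub (m1 h) k, fun h => Pln.Up_sub h k⟩
  rcases hx with k | ((⟨w, hw, e⟩ | ⟨w, hw, e⟩) | k) | k
  · exact ⟨fun h => d h k.1, d' k.2⟩
  · exact k1 (S.mem_range.2 (Or.inr (Or.inr ⟨w, hw.1, e⟩)))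
  · exact k2 (S'.mem_range.2 (Or.inl ⟨w, hw.2, e⟩))
  · exact k1 (S.mem_range.2 (Or.inr (Or.inl k)))
  · exact k2 (S'.mem_range.2 (Or.inr (Or.inl k)))

lemma sub_blk' (S : Str H u u' t a) (S' : Str H u u' t' a') (C : Ctx H c u u') (h : t < t')
    (hd : ∀ y ∈ strip, ∀ y' ∈ strip, a y ≠ a' y') : sub u u' t t' a a' ⊆ Blk ∅ u u' := by
  intro x hx
  obtain ⟨h1, h2⟩ := S.between S' C h hd hx
  exact ⟨⟨fun i hi => absurd hi (Finset.notMem_empty i),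
    C.p.toPln2.compl_Dn ▸ fun k => h1 (S.Dn_u C k)⟩,
    C.p'.toPln2.compl_Up ▸ fun k => h2 (S'.Up_u' C k)⟩

lemma sub_closed (S : Str H u u' t a) (S' : Str H u u' t' a') (C : Ctx H c u u') (h : t < t')
    (hd : ∀ y ∈ strip, ∀ y' ∈ strip, a y ≠ a' y') : IsClosed (sub u u' t t' a a') := by
  have cb : IsClosed (band t t') := isClosed_Icc.preimage (continuous_apply 1)
  refine (S.pln C).isClosed_between (S'.pln C).toPln2 (S.mono S' C h hd).1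
    ((((C.p.isClosedEmbedding.isClosedMap _ cb).union
      (C.p'.isClosedEmbedding.isClosedMap _ cb)).union (S.isClosed C)).union (S'.isClosed C))
    fun x hx => ?_
  rw [S.mem_range, S'.mem_range]
  constructor
  · rintro (⟨y, hy, e⟩ | k | ⟨y, hy, e⟩)
    · exact Or.inl ⟨y, hy.trans h.le, e⟩
    · exact (hx (Or.inl (Or.inr k))).elim
    · exact Or.inr (Or.inr ⟨y, le_of_not_ge fun k =>
        hx (Or.inl (Or.inl (Or.inl ⟨y, ⟨hy, k⟩, e⟩))), e⟩)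
  · rintro (⟨y, hy, e⟩ | k | ⟨y, hy, e⟩)
    · exact Or.inl ⟨y, le_of_not_ge fun k => hx (Or.inl (Or.inl (Or.inr ⟨y, ⟨k, hy⟩, e⟩))), e⟩
    · exact (hx (Or.inr k)).elim
    · exact Or.inr (Or.inr ⟨y, h.le.trans hy, e⟩)

/-- **the region between two vertical annuli is a solid torus** -/
theorem fill (S : Str H u u' t a) (S' : Str H u u' t' a') (C : Ctx H c u u') (hS : SolidStmt)
    (h : t < t') (h1 : t' - t < 1) (hd : ∀ y ∈ strip, ∀ y' ∈ strip, H (a y) ≠ H (a' y'))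
    {s s' : ℝ} (es : s = t) (es' : s' = t') :
    ∃ G : P × ℝ → V, LPL G (rct s s' c ×ˢ univ) ∧
      (∀ p ∈ rct s s' c ×ˢ (univ : Set ℝ), (p.1 1 = c → G p = H (u ![p.2, p.1 0])) ∧
        (p.1 1 = c + 1 → G p = H (u' ![p.2, p.1 0])) ∧
        (p.1 0 = s → G p = H (a ![p.2, p.1 1 - c])) ∧
        (p.1 0 = s' → G p = H (a' ![p.2, p.1 1 - c]))) ∧
      (∀ p ∈ rct s s' c ×ˢ (univ : Set ℝ), ∀ p' ∈ rct s s' c ×ˢ (univ : Set ℝ),
        G p = G p' ↔ p.1 = p'.1 ∧ ∃ m : ℤ, p.2 - p'.2 = m) ∧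
      G '' (rct s s' c ×ˢ univ) = H '' sub u u' t t' a a' := by
  subst es es'
  have F := S.four S' C h h1 hd
  have hd' : ∀ y ∈ strip, ∀ y' ∈ strip, a y ≠ a' y' := fun y hy y' hy' e =>
    hd y hy y' hy' (congrArg H e)
  have Z := S.pln C
  have Z' := S'.pln C
  have cl := S.sub_closed S' C h hd'
  have le := S.le S' C h hd'
  obtain ⟨r, cr, r1, r2⟩ := Z.toPln2.exists_retr Z'.toPln2 le
  let π : P → P := fun y => ![y 0, max s (min s' (y 1))]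
  have π1 : ∀ y, π y ∈ band s s' := fun y =>
    ⟨le_max_left _ _, max_le h.le (min_le_left _ _)⟩
  have π2 : ∀ y : P, y 1 ∈ Icc s s' → π y = y := fun y hy => by
    simp only [π, min_eq_right hy.2, max_eq_right hy.1, eta2]
  obtain ⟨ρ, c1, a1, b1⟩ := collapse (cl.union C.p'.isClosed) C.p.isClosedEmbedding
    (π := π) (by fun_prop) (fun y => Or.inl (Or.inr (Or.inl (Or.inl (Or.inl ⟨_, π1 y, rfl⟩)))))
    fun y hy => π2 y (S.memU S' C h (hy.resolve_right (Pln.Dn_sub (C.ud y))))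
  obtain ⟨σ, c2, a2, b2⟩ := collapse cl C.p'.isClosedEmbedding (π := π) (by fun_prop)
    (fun y => Or.inr (Or.inl (Or.inl (Or.inr ⟨_, π1 y, rfl⟩)))) fun y hy => π2 y (S.memU' S' C h hy)
  have rm : ∀ x, r x ∈ sub u u' s s' a a' ∪ range u' ∪ range u := fun x => by
    have k : ∀ {τ : ℝ} {b : P → V}, Str H u u' τ b → b '' strip ⊆ sub u u' s s' a a' →
        r x ∈ range (zp u u' τ b) → r x ∈ sub u u' s s' a a' ∪ range u' ∪ range u := by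
      intro τ b R hb hx
      rcases R.mem_range.1 hx with ⟨y, -, e⟩ | k | ⟨y, -, e⟩
      exacts [Or.inl (Or.inr ⟨y, e⟩), Or.inl (Or.inl (hb k)), Or.inr ⟨y, e⟩]
    obtain ⟨k1 | k1, k2 | k2⟩ := r1 x
    · exact Or.inl (Or.inl (Or.inl ⟨k1, k2⟩))
    · exact k S' (fun _ h => Or.inr (Or.inr h)) k2
    · exact k S (fun _ h => Or.inr (Or.inl (Or.inr h))) k1
    · exact k S (fun _ h => Or.inr (Or.inl (Or.inr h))) k1
  refine F.fill C.hF hS C.hH c (Z.isOpen_Up.inter Z'.isOpen_Dn) ?_ rfl ?_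
    (r := fun x => σ (ρ (r x))) (c2.comp_continuous (c1.comp_continuous cr rm) fun x => a1 _)
    (fun x => a2 _) fun x hx => ?_
  · have m : u' ![0, s'] ∈ range (zp u u' s' a') := S'.mem_range.2 (Or.inl ⟨_, le_rfl, rfl⟩)
    have m' : u' ![0, s'] ∈ Up (zp u u' s a) := (le m).resolve_right fun k => by
      rcases S.mem_range.1 k with ⟨y, hy, e⟩ | ⟨y, hy, e⟩ | ⟨y, -, e⟩
      · rw [C.hu'.inj e] at hy; exact not_le.2 h hy
      · exact h.ne' (congrFun (S.eq_u' C hy e).2 1)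
      · exact C.ne _ _ e
    obtain ⟨y, hy⟩ := m
    exact closure_nonempty_iff.1 ⟨_, Z.isOpen_Up.inter_closure ⟨m', hy ▸ Z'.cl_Dn y⟩⟩
  · obtain ⟨M, hM⟩ := S.far C
    obtain ⟨M', hM'⟩ := S'.far C
    have cT := tor_compact (F.tor c)
    rw [← image_image H, F.img] at cT
    have e : H '' sub u u' s s' a a' =
        H '' (closedBall 0 (max 1 (max (max M M') (|c| + 2))) ∩ sub u u' s s' a a') ∪
          H '' (u '' band s s' ∪ u' '' band s s' ∪ a '' strip ∪ a' '' strip) := by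
      refine Subset.antisymm ?_ (union_subset (image_mono inter_subset_right)
        (image_mono subset_union_right))
      rintro _ ⟨x, hx | hx, rfl⟩
      · have z : ∀ b : P → V, ∀ y, b y = b y + ![0, ((0 : ℤ) : ℝ), 0] := fun b y => by
          funext i; fin_cases i <;> simp
        refine Or.inl ⟨x + ![((-⌊x 0⌋ : ℤ) : ℝ), ((0 : ℤ) : ℝ), 0], ⟨?_, Or.inl
          ⟨Up_add rfl (S.shift S C _ 0 (by simp) (z a)) hx.1,
            Dn_add rfl (S'.shift S' C _ 0 (by simp) (z a')) hx.2⟩⟩,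
          C.hH.add _ (mem_lat_two.2 ⟨_, _, rfl⟩)⟩
        have u1 := S.Up_u C hx.1
        have u2 := S'.Dn_u' C hx.2
        have b1 := lt_of_mem_up C.hu C.p.toPln2.sepH (Or.inl u1)
        have b2 := lt_of_mem_dn C.hu' C.p'.toPln2.sepH (Or.inl u2)
        have b3 : -M ≤ x 1 := le_of_not_gt fun k =>
          disjoint_left.1 Z.toPln.disjoint ((hM x).2 k u2) hx.1
        have b4 : x 1 ≤ M' := le_of_not_gt fun k =>
          disjoint_left.1 Z'.toPln.disjoint hx.2 ((hM' x).1 k u1)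
        rw [mem_closedBall_zero_iff, pi_norm_le_iff_of_nonneg (le_max_of_le_left zero_le_one)]
        intro i
        fin_cases i
        · refine le_max_of_le_left (abs_le.2 ⟨?_, ?_⟩)
          · show _ ≤ x 0 + ((-⌊x 0⌋ : ℤ) : ℝ); push_cast; linarith [Int.floor_le (x 0)]
          · show x 0 + ((-⌊x 0⌋ : ℤ) : ℝ) ≤ _; push_cast; linarith [Int.lt_floor_add_one (x 0)]
        · refine le_max_of_le_right (le_max_of_le_left (abs_le.2 ⟨?_, ?_⟩))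
          · show _ ≤ x 1 + ((0 : ℤ) : ℝ); push_cast; linarith [le_max_left M M']
          · show x 1 + ((0 : ℤ) : ℝ) ≤ _; push_cast; linarith [le_max_right M M']
        · refine le_max_of_le_right (le_max_of_le_right (abs_le.2 ⟨?_, ?_⟩))
          · show _ ≤ x 2 + 0; linarith [neg_abs_le c]
          · show x 2 + 0 ≤ _; linarith [le_abs_self c]
      · exact Or.inr ⟨x, hx, rfl⟩
    show IsCompact (H '' sub u u' s s' a a')
    rw [e]
    exact (((isCompact_closedBall _ _).inter_right cl).image C.hH.cont).union cT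
  · obtain ⟨k1, k2⟩ := S.between S' C h hd' hx
    rw [r2 x ⟨Z.toPln2.compl_Dn ▸ k1, Z'.toPln2.compl_Up ▸ k2⟩, b1 x (Or.inl hx), b2 x hx]

end Str

/-- **torus blocks** -/
theorem blk_zero (hF : FlatStmt) (hS : SolidStmt) (hA : AnnStmt) : BlkStmt ∅ {0, 1} := by
  classical
  intro H hH _ c u u' hu hu'
  have C : Ctx H c u u' := ⟨hF, hH, hu, hu'⟩
  have h2 : (2 : Fin 3) ∉ ({0, 1} : Finset (Fin 3)) := by decide
  obtain ⟨a, ha⟩ := hA H hH c u u' hu hu'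
  let A : Fin 2 → ℤ → P → V := fun j m y => a j y + ![0, (m : ℝ), 0]
  let τ : Fin 2 → ℤ → ℝ := fun j m => ((j : ℕ) : ℝ) / 2 + m
  have lt : ∀ k m : ℤ, (![(k : ℝ), (m : ℝ), 0] : V) ∈ lat {0, 1} := fun k m =>
    mem_lat_two.2 ⟨k, m, rfl⟩
  have HA : ∀ j m y, H (A j m y) = H (a j y) := fun j m y =>
    hH.add _ (mem_lat_two.2 ⟨0, m, by simp⟩)
  have sh : ∀ {v : P → V} {d : ℝ}, Rung ∅ {0, 1} H d (1 / 3) v → ∀ (s r : ℝ) (m : ℤ),
      v ![s, r + m] = v ![s, r] + ![0, (m : ℝ), 0] := fun hv s r m => by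
    simpa using hv.shift s r 0 m
  have S : ∀ j m, Str H u u' (τ j m) (A j m) := fun j m => by
    obtain ⟨a1, a2, a3, a4, a5, a6⟩ := ha j
    have l0 : (![0, (m : ℝ), 0] : V) ∈ lat {0, 1} := by simpa using lt 0 m
    refine ⟨a1.add continuousOn_const, fun y hy k => ?_, fun s => ?_, fun s => ?_,
      fun y h0 h1 => ⟨hu.add_Up h2 l0 (a4 y h0 h1).1, hu'.add_Dn h2 l0 (a4 y h0 h1).2⟩,
      a5.congr fun y _ => HA j m y, fun y hy y' hy' => ?_⟩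
    · simp only [A]; rw [a2 y hy, add_right_comm]
    · simp only [A, τ]; rw [(a3 s).1, sh hu]
    · simp only [A, τ]; rw [(a3 s).2, sh hu']
    · rw [HA, HA]
      refine ⟨fun e => (a6 j y hy y' hy' e).2.symm, fun ⟨e, k, hk⟩ => ?_⟩
      rw [← eta2 y, e, show y 0 = y' 0 + k by linarith, a2 y' hy']
      exact hH.add _ (mem_lat_two.2 ⟨k, 0, by simp⟩)
  have dj : ∀ j m j' m', τ j m < τ j' m' → ∀ y ∈ strip, ∀ y' ∈ strip, A j m y ≠ A j' m' y' := by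
    intro j m j' m' h y hy y' hy' e
    obtain ⟨rfl, ⟨k, hk⟩, e1⟩ := (ha j).2.2.2.2.2 j' y hy y' hy' (by rw [← HA j m, e, HA])
    simp only [A] at e
    rw [← eta2 y, e1, show y 0 = y' 0 + k by linarith, (ha j).2.1 y' hy'] at e
    have : a j y' 1 + 0 + m = a j y' 1 + m' := congrFun e 1
    simp only [τ] at h
    linarith
  have mn : ∀ j m m', m ≤ m' → Dn (zp u u' (τ j m) (A j m)) ⊆ Dn (zp u u' (τ j m') (A j m')) ∧
      Up (zp u u' (τ j m') (A j m')) ⊆ Up (zp u u' (τ j m) (A j m)) := fun j m m' h => by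
    rcases h.eq_or_lt with rfl | h
    · exact ⟨Subset.rfl, Subset.rfl⟩
    · have : τ j m < τ j m' := by
        have : (m : ℝ) < m' := by exact_mod_cast h
        simp only [τ]; linarith
      exact (S j m).mono (S j m') C this (dj _ _ _ _ this)
  have tr : ∀ j (m n k m' : ℤ), m' = m + n → ∀ x, x + ![(k : ℝ), (n : ℝ), 0] ∈
      range (zp u u' (τ j m') (A j m')) → x ∈ range (zp u u' (τ j m) (A j m)) := by
    rintro j m n k _ rfl
    refine (S j m).shift (S j (m + n)) C k n (by simp only [τ]; push_cast; ring) fun y => ?_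
    simp only [A]; rw [add_assoc]; congr 1
    funext i; fin_cases i <;> simp
  have t0 : (0 : ℝ) = τ 0 0 := by simp [τ]
  have t1 : (1 / 2 : ℝ) = τ 1 0 := by simp [τ]
  have t2 : (1 : ℝ) = τ 0 1 := by simp [τ]
  have l01 : τ 0 0 < τ 1 0 := by linarith
  have l12 : τ 1 0 < τ 0 1 := by linarith
  obtain ⟨G0, p0, b0, f0, i0⟩ := (S 0 0).fill (S 1 0) C hS l01 (by linarith) (fun y hy y' hy' e =>
    absurd ((ha 0).2.2.2.2.2 1 y hy y' hy' (by rw [← HA 0 0, e, HA])).1 (by decide)) t0 t1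
  obtain ⟨G1, p1, b1, f1, i1⟩ := (S 1 0).fill (S 0 1) C hS l12 (by linarith) (fun y hy y' hy' e =>
    absurd ((ha 1).2.2.2.2.2 0 y hy y' hy' (by rw [← HA 1 0, e, HA])).1 (by decide)) t1 t2
  have hW : ∀ z₀ ∈ sub u u' (τ 0 0) (τ 1 0) (A 0 0) (A 1 0),
      ∀ z₁ ∈ sub u u' (τ 1 0) (τ 0 1) (A 1 0) (A 0 1), H z₀ = H z₁ →
      z₁ ∈ A 1 0 '' strip ∪ A 0 1 '' strip := by
    intro z₀ h₀ z₁ h₁ e
    obtain ⟨k, m, hl⟩ := mem_lat_two.1 ((hH.fib _ _).1 e)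
    have e' : z₁ + ![(k : ℝ), (m : ℝ), 0] = z₀ := by rw [← hl]; simp
    have it : ∀ r : ℝ, r ∈ Icc (τ 1 0) (τ 0 1) → r + m ∈ Icc (τ 0 0) (τ 1 0) →
        r = τ 1 0 ∨ r = τ 0 1 := fun r h h' => by
      rcases le_or_gt 0 m with q | q
      · have : (0 : ℝ) ≤ m := by exact_mod_cast q
        exact Or.inl (by linarith [h.1, h'.2])
      · have : (m : ℝ) ≤ ((-1 : ℤ) : ℝ) := by exact_mod_cast (by omega : m ≤ -1)
        push_cast at this
        exact Or.inr (by linarith [h.2, h'.1])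
    have s0 : ∀ s : ℝ, (![s, 0] : P) ∈ strip := fun s => ⟨le_rfl, zero_le_one⟩
    have s1 : ∀ s : ℝ, (![s, 1] : P) ∈ strip := fun s => ⟨zero_le_one, le_rfl⟩
    rcases h₁ with q | ((⟨w, hw, rfl⟩ | ⟨w, hw, rfl⟩) | q) | q
    · exfalso
      obtain ⟨n1, n2⟩ := (S 0 0).between (S 1 0) C l01 (dj _ _ _ _ l01) h₀
      rcases le_or_gt 0 m with q' | q'
      · exact n2 (e' ▸ Up_add rfl (tr 1 (-m) m k 0 (by ring)) ((mn 1 (-m) 0 (by omega)).2 q.1))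
      · exact n1 (e' ▸ Dn_add rfl (tr 0 (-m) m k 0 (by ring)) ((mn 0 1 (-m) (by omega)).1 q.2))
    · rw [← e', ← eta2 w, ← hu.shift] at h₀
      rcases it _ hw ((S 0 0).memU (S 1 0) C l01 h₀) with r | r
      · exact Or.inl ⟨_, s0 (w 0), by rw [(S 1 0).bot, ← r, eta2]⟩
      · exact Or.inr ⟨_, s0 (w 0), by rw [(S 0 1).bot, ← r, eta2]⟩
    · rw [← e', ← eta2 w, ← hu'.shift] at h₀
      rcases it _ hw ((S 0 0).memU' (S 1 0) C l01 h₀) with r | r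
      · exact Or.inl ⟨_, s1 (w 0), by rw [(S 1 0).top, ← r, eta2]⟩
      · exact Or.inr ⟨_, s1 (w 0), by rw [(S 0 1).top, ← r, eta2]⟩
    · exact Or.inl q
    · exact Or.inr q
  let g : P × ℝ → V := fun p => if p.1 0 ≤ 1 / 2 then G0 p else G1 p
  have g0 : ∀ p ∈ rct 0 (1 / 2) c ×ˢ (univ : Set ℝ), g p = G0 p := fun p hp => if_pos hp.1.1.2
  have g1 : ∀ p ∈ rct (1 / 2) 1 c ×ˢ (univ : Set ℝ), g p = G1 p := fun p hp => by
    rcases hp.1.1.1.eq_or_lt with h | h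
    · have hp' : p ∈ rct 0 (1 / 2) c ×ˢ (univ : Set ℝ) :=
        ⟨⟨⟨by linarith, h.ge⟩, hp.1.2⟩, trivial⟩
      rw [g0 p hp', (b0 p hp').2.2.2 h.symm, (b1 p hp).2.2.1 h.symm]
    · exact if_neg (not_le.2 h)
  have cs : ∀ p ∈ rct 0 1 c ×ˢ (univ : Set ℝ), p ∈ rct 0 (1 / 2) c ×ˢ (univ : Set ℝ) ∨
      (p ∈ rct (1 / 2) 1 c ×ˢ (univ : Set ℝ) ∧ 1 / 2 < p.1 0) := fun p hp =>
    (le_or_gt (p.1 0) (1 / 2)).imp (fun h => ⟨⟨⟨hp.1.1.1, h⟩, hp.1.2⟩, trivial⟩)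
      fun h => ⟨⟨⟨⟨h.le, hp.1.1.2⟩, hp.1.2⟩, trivial⟩, h⟩
  have pg : LPL g (rct 0 1 c ×ˢ univ) :=
    ((p0.congr g0).union (p1.congr g1) ((isClosed_rct _ _ _).prod isClosed_univ)
      ((isClosed_rct _ _ _).prod isClosed_univ)).mono fun p hp => (cs p hp).imp_right And.left
  have mix : ∀ p ∈ rct 0 (1 / 2) c ×ˢ (univ : Set ℝ), ∀ q ∈ rct (1 / 2) 1 c ×ˢ (univ : Set ℝ),
      1 / 2 < q.1 0 → q.1 0 < 1 → G0 p ≠ G1 q := by
    intro p hp q hq k1 k2 e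
    obtain ⟨z₀, h₀, e₀⟩ := i0.subset ⟨p, hp, rfl⟩
    obtain ⟨z₁, h₁, e₁⟩ := i1.subset ⟨q, hq, rfl⟩
    have m : ∀ (r : ℝ) (y : P), r ∈ Icc (1 / 2 : ℝ) 1 → y ∈ strip →
        ((![r, c + y 1], y 0) : P × ℝ) ∈ rct (1 / 2) 1 c ×ˢ (univ : Set ℝ) := fun r y hr hy =>
      ⟨⟨hr, by simpa using hy.1, by simpa using hy.2⟩, trivial⟩
    rcases hW z₀ h₀ z₁ h₁ (by rw [e₀, e₁, e]) with ⟨y, hy, rfl⟩ | ⟨y, hy, rfl⟩
    · have hm := m (1 / 2) y ⟨le_rfl, by norm_num⟩ hy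
      have := ((f1 _ hq _ hm).1 (by rw [(b1 _ hm).2.2.1 rfl, ← e₁]; simp [eta2])).1
      exact k1.ne' (congrFun this 0)
    · have hm := m 1 y ⟨by norm_num, le_rfl⟩ hy
      have := ((f1 _ hq _ hm).1 (by rw [(b1 _ hm).2.2.2 rfl, ← e₁]; simp [eta2])).1
      exact k2.ne (congrFun this 0)
  have fg : ∀ p ∈ rct 0 1 c ×ˢ (univ : Set ℝ), ∀ q ∈ rct 0 1 c ×ˢ (univ : Set ℝ), p.1 0 < 1 →
      q.1 0 < 1 → (g p = g q ↔ p.1 = q.1 ∧ ∃ m : ℤ, p.2 - q.2 = m) := by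
    intro p hp q hq k1 k2
    rcases cs p hp with h | h <;> rcases cs q hq with h' | h'
    · rw [g0 p h, g0 q h', f0 p h q h']
    · rw [g0 p h, g1 q h'.1]
      exact ⟨fun e => (mix p h q h'.1 h'.2 k2 e).elim,
        fun e => absurd h.1.1.2 (by rw [e.1]; exact not_le.2 h'.2)⟩
    · rw [g1 p h.1, g0 q h']
      exact ⟨fun e => (mix q h' p h.1 h.2 k1 e.symm).elim,
        fun e => absurd h'.1.1.2 (by rw [← e.1]; exact not_le.2 h.2)⟩
    · rw [g1 p h.1, g1 q h'.1, f1 p h.1 q h'.1]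
  let κ : ℤ → V → P × ℝ := fun m x => (![x 1 - m, x 2], x 0)
  have mκ : ∀ (m : ℤ), ∀ x ∈ Lay ∅ c, (m : ℝ) ≤ x 1 → x 1 ≤ m + 1 →
      κ m x ∈ rct 0 1 c ×ˢ (univ : Set ℝ) := fun m x hx k1 k2 =>
    ⟨⟨⟨sub_nonneg.2 k1, by show x 1 - m ≤ 1; linarith⟩, hx.2⟩, trivial⟩
  have mf : ∀ x ∈ Lay ∅ c, κ ⌊x 1⌋ x ∈ rct 0 1 c ×ˢ (univ : Set ℝ) := fun x hx =>
    mκ _ x hx (Int.floor_le _) (Int.lt_floor_add_one _).le
  have Gm : ∀ (m : ℤ), ∀ x ∈ Lay ∅ c, (m : ℝ) ≤ x 1 → x 1 ≤ m + 1 →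
      g (κ ⌊x 1⌋ x) = g (κ m x) := fun m x hx k1 k2 => by
    rcases k2.lt_or_eq with h | h
    · rw [Int.floor_eq_iff.2 ⟨k1, h⟩]
    · have e : ⌊x 1⌋ = m + 1 := by rw [h]; exact_mod_cast Int.floor_intCast (R := ℝ) (m + 1)
      have e0 : (κ (m + 1) x).1 0 = 0 := by show x 1 - ((m + 1 : ℤ) : ℝ) = 0; push_cast; linarith
      have e1 : (κ m x).1 0 = 1 := by show x 1 - m = 1; linarith
      have q0 : κ (m + 1) x ∈ rct 0 (1 / 2) c ×ˢ (univ : Set ℝ) :=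
        ⟨⟨by rw [e0]; norm_num, hx.2⟩, trivial⟩
      have q1 : κ m x ∈ rct (1 / 2) 1 c ×ˢ (univ : Set ℝ) :=
        ⟨⟨by rw [e1]; norm_num, hx.2⟩, trivial⟩
      rw [e, g0 _ q0, g1 _ q1, (b0 _ q0).2.2.1 e0, (b1 _ q1).2.2.2 e1, HA, HA]
      rfl
  have lv' : ∀ {v : P → V} {d : ℝ}, Rung ∅ {0, 1} H d (1 / 3) v → ∀ x : V,
      H (v ![x 0, x 1 - ⌊x 1⌋]) = H (v (pr x)) := fun hv x => by
    have := hv.shift (x 0) (x 1 - ⌊x 1⌋) 0 ⌊x 1⌋
    rw [sub_add_cancel, Int.cast_zero, add_zero] at this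
    rw [show pr x = ![x 0, x 1] from rfl, this, hH.add _ (mem_lat_two.2 ⟨0, ⌊x 1⌋, by simp⟩)]
  have bot : ∀ x ∈ Lay ∅ c, x 2 = c → g (κ ⌊x 1⌋ x) = H (u (pr x)) := fun x hx h => by
    rw [← lv' hu]
    rcases cs _ (mf x hx) with q | q
    · rw [g0 _ q, (b0 _ q).1 h]; rfl
    · rw [g1 _ q.1, (b1 _ q.1).1 h]; rfl
  have top : ∀ x ∈ Lay ∅ c, x 2 = c + 1 → g (κ ⌊x 1⌋ x) = H (u' (pr x)) := fun x hx h => by
    rw [← lv' hu']
    rcases cs _ (mf x hx) with q | q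
    · rw [g0 _ q, (b0 _ q).2.1 h]; rfl
    · rw [g1 _ q.1, (b1 _ q.1).2.1 h]; rfl
  have sl : ∀ x, x ∈ slab ∅ := fun x i hi => absurd hi (Finset.notMem_empty i)
  refine ⟨fun x => g (κ ⌊x 1⌋ x), lpl_iff.2 fun x hx => ?_, bot, top,
    fun x _ ⟨i, hi, _⟩ => absurd hi (Finset.notMem_empty i), fun x hx y hy => ?_, ?_⟩
  · have cl : ∀ m : ℤ, IsClosed (Lay ∅ c ∩ {x : V | x 1 ∈ Icc (m : ℝ) (m + 1)}) := fun m =>
      (isClosed_lay _ _).inter (isClosed_Icc.preimage (continuous_apply 1))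
    have pm : ∀ m : ℤ, LPL (fun x => g (κ ⌊x 1⌋ x))
        (Lay ∅ c ∩ {x : V | x 1 ∈ Icc (m : ℝ) (m + 1)}) := fun m =>
      (pg.comp (lpl_of_plOn (pl_prod (pl_vec2 (pl_sub (pl_coord 1 _) (plOn_const _ _))
        (pl_coord 2 _)) (pl_coord 0 _))) fun x hx => mκ m x hx.1 hx.2.1 hx.2.2).congr
        fun x hx => Gm m x hx.1 hx.2.1 hx.2.2
    have k1 := Int.floor_le (x 1)
    have k2 := Int.lt_floor_add_one (x 1)
    obtain ⟨N, hN, hp⟩ := lpl_iff.1 ((pm (⌊x 1⌋ - 1)).union (pm ⌊x 1⌋) (cl _) (cl _)) x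
      (Or.inr ⟨hx, k1, k2.le⟩)
    refine ⟨N, nhdsWithin_le_of_mem ?_ hN, hp⟩
    filter_upwards [self_mem_nhdsWithin, mem_nhdsWithin_of_mem_nhds
      ((continuous_apply (A := fun _ : Fin 3 => ℝ) 1).continuousAt
        (Ioo_mem_nhds (a := (⌊x 1⌋ : ℝ) - 1) (b := ⌊x 1⌋ + 1) (by linarith) k2))] with y hy hy'
    rcases le_total (y 1) ⌊x 1⌋ with h | h
    · exact Or.inl ⟨hy, by push_cast; exact hy'.1.le, by push_cast; linarith⟩
    · exact Or.inr ⟨hy, h, hy'.2.le⟩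
  · rw [fg _ (mf x hx) _ (mf y hy) (Int.fract_lt_one (x 1)) (Int.fract_lt_one (y 1)), mem_lat_two]
    constructor
    · rintro ⟨e, k, hk⟩
      have e0 : x 1 - ⌊x 1⌋ = y 1 - ⌊y 1⌋ := congrFun e 0
      have e1 : x 2 = y 2 := congrFun e 1
      refine ⟨k, ⌊x 1⌋ - ⌊y 1⌋, ?_⟩
      funext i; fin_cases i
      · exact hk
      · show x 1 - y 1 = ((⌊x 1⌋ - ⌊y 1⌋ : ℤ) : ℝ); push_cast; linarith
      · exact sub_eq_zero.2 e1
    · rintro ⟨k, m, e⟩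
      refine ⟨?_, k, congrFun e 0⟩
      have e1 : Int.fract (x 1) = Int.fract (y 1) := Int.fract_eq_fract.2 ⟨m, congrFun e 1⟩
      have e2 : x 2 = y 2 := sub_eq_zero.1 (congrFun e 2)
      show ![Int.fract (x 1), x 2] = ![Int.fract (y 1), y 2]
      rw [e1, e2]
  · apply Subset.antisymm
    · rintro _ ⟨x, hx, rfl⟩
      rcases cs _ (mf x hx) with q | q
      · exact image_mono ((S 0 0).sub_blk' (S 1 0) C l01 (dj _ _ _ _ l01))
          (i0.subset ⟨_, q, (g0 _ q).symm⟩)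
      · exact image_mono ((S 1 0).sub_blk' (S 0 1) C l12 (dj _ _ _ _ l12))
          (i1.subset ⟨_, q.1, (g1 _ q.1).symm⟩)
    have key : ∀ p ∈ rct 0 1 c ×ˢ (univ : Set ℝ), g p ∈ (fun x => g (κ ⌊x 1⌋ x)) '' Lay ∅ c := by
      intro p hp
      have hx : (![p.2, p.1 0, p.1 1] : V) ∈ Lay ∅ c := ⟨sl _, hp.1.2⟩
      refine ⟨_, hx, (Gm 0 _ hx (by simpa using hp.1.1.1) (by simpa using hp.1.1.2)).trans
        (congrArg g (Prod.ext ?_ rfl))⟩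
      simpa [κ] using eta2 p.1
    have w0 : ∀ z ∈ sub u u' (τ 0 0) (τ 1 0) (A 0 0) (A 1 0),
        H z ∈ (fun x => g (κ ⌊x 1⌋ x)) '' Lay ∅ c := fun z hz => by
      obtain ⟨p, hp, e⟩ := i0.superset ⟨z, hz, rfl⟩
      rw [← e, ← g0 p hp]
      exact key p ⟨⟨⟨hp.1.1.1, hp.1.1.2.trans (by norm_num)⟩, hp.1.2⟩, trivial⟩
    have w1 : ∀ z ∈ sub u u' (τ 1 0) (τ 0 1) (A 1 0) (A 0 1),
        H z ∈ (fun x => g (κ ⌊x 1⌋ x)) '' Lay ∅ c := fun z hz => by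
      obtain ⟨p, hp, e⟩ := i1.superset ⟨z, hz, rfl⟩
      rw [← e, ← g1 p hp]
      exact key p ⟨⟨⟨le_trans (by norm_num) hp.1.1.1, hp.1.1.2⟩, hp.1.2⟩, trivial⟩
    rintro _ ⟨x, ⟨⟨-, hU | ⟨y, rfl⟩⟩, hD⟩, rfl⟩
    · rcases hD with hD | ⟨y, rfl⟩
      · obtain ⟨M, hM⟩ := (S 0 0).far C
        obtain ⟨n, hn, hmin⟩ := Int.exists_least_of_bdd
          (P := fun n : ℤ => x + ![((0 : ℤ) : ℝ), (n : ℝ), 0] ∈ Up (zp u u' (τ 0 0) (A 0 0)))
          ⟨⌊-M - x 1⌋, fun n hn => by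
            by_contra q
            have : (n : ℝ) < ⌊-M - x 1⌋ := by exact_mod_cast not_le.1 q
            exact disjoint_left.1 ((S 0 0).pln C).toPln.disjoint ((hM _).2 (by
              show x 1 + n < -M
              linarith [Int.floor_le (-M - x 1)]) (hu'.add_Dn h2 (lt 0 n) hD)) hn⟩
          ⟨⌊M - x 1⌋ + 1, (hM _).1 (by
            show M < x 1 + ((⌊M - x 1⌋ + 1 : ℤ) : ℝ)
            push_cast; linarith [Int.lt_floor_add_one (M - x 1)]) (hu.add_Up h2 (lt 0 _) hU)⟩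
        rw [← hH.add x (lt 0 n)]
        have hU' := hu.add_Up h2 (lt 0 n) hU
        have hD' := hu'.add_Dn h2 (lt 0 n) hD
        have n2 : x + ![((0 : ℤ) : ℝ), (n : ℝ), 0] ∉ Up (zp u u' (τ 0 1) (A 0 1)) := fun q => by
          have := Up_add rfl (tr 0 1 (-1) 0 0 (by ring)) q
          have e : x + ![((0 : ℤ) : ℝ), (n : ℝ), 0] + ![((0 : ℤ) : ℝ), ((-1 : ℤ) : ℝ), 0] =
              x + ![((0 : ℤ) : ℝ), ((n - 1 : ℤ) : ℝ), 0] := by
            rw [add_assoc]; congr 1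
            funext i; fin_cases i <;> simp [sub_eq_add_neg]
          rw [e] at this
          have := hmin _ this
          omega
        generalize x + ![((0 : ℤ) : ℝ), (n : ℝ), 0] = z at hn hU' hD' n2
        have st : ∀ j m, z ∈ range (zp u u' (τ j m) (A j m)) → z ∈ A j m '' strip := fun j m q => by
          rcases (S j m).mem_range.1 q with ⟨y, -, e⟩ | q | ⟨y, -, e⟩
          exacts [(Pln.Dn_sub hD' ⟨y, e⟩).elim, q, (Pln.Up_sub hU' ⟨y, e⟩).elim]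
        rcases ((S 1 0).pln C).tri z with q | q | q
        · exact w0 z (Or.inl ⟨hn, q⟩)
        · exact w0 z (Or.inr (Or.inr (st _ _ q)))
        · rcases ((S 0 1).pln C).tri z with q' | q' | q'
          · exact w1 z (Or.inl ⟨q, q'⟩)
          · exact w1 z (Or.inr (Or.inr (st _ _ q')))
          · exact (n2 q').elim
      · have hx : lv (c + 1) y ∈ Lay ∅ c := ⟨sl _, by simp, le_rfl⟩
        exact ⟨_, hx, (top _ hx rfl).trans (by rw [pr_lv])⟩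
    · have hx : lv c y ∈ Lay ∅ c := ⟨sl _, le_rfl, by simp⟩
      exact ⟨_, hx, (bot _ hx rfl).trans (by rw [pr_lv])⟩

end Crest.Agent.X212.Prd34
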