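import Crest.Agent.X212.Prd34.Blk0
import Crest.Agent.X212.Sol49.Main
import Crest.Agent.X212.Cor42.Main

/-!
# X212 / T layer: PL handle straightening from the six leaves (helper34)
-/

set_option autoImplicit false

namespace Crest.Agent.X212.Prd34

open Crest.Agent.X212.Lad50

/-- **PL handle straightening in dimension three** -/
theorem plhs (hF : FlatStmt) (hD : DehnStmt) (hT : ThickStmt) (h1 : Rung1Stmt) (h0 : Rung0Stmt)
    (hA : AnnStmt) (K : Finset (Fin 3)) : PLHS K :=
  have hS := Sol49.solid hD hT
  have hG := glue_of (sep_of hF)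
  plhs_all (plhs_zero h0 (blk_zero hF hS hA) hG) (plhs_one h1 (Cor42.core1 h1) (blk_one hF hS) hG)
    (plhs_two (rung2_of hD) (blk_two (sep_of hF)) hG) plhs_three K

end Crest.Agent.X212.Prd34
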