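import Crest.Agent.X212.Prd34.Top
import Crest.Agent.R202.Miranda

/-!
# X212 / T layer: a plane at bounded distance from the floor separates three-space (helper34)
-/

set_option autoImplicit false

open Set Metric Topology

namespace Crest.Agent.X212.Prd34

open Crest.Agent.R096.Ce_537 Crest.Agent.X212.Lad50

@[simp] lemma lv_zero (c : ℝ) (y : P) : lv c y 0 = y 0 := rfl
@[simp] lemma lv_one (c : ℝ) (y : P) : lv c y 1 = y 1 := rfl
@[simp] lemma lv_two (c : ℝ) (y : P) : lv c y 2 = c := rfl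
@[simp] lemma pr_zero (x : V) : pr x 0 = x 0 := rfl
@[simp] lemma pr_one (x : V) : pr x 1 = x 1 := rfl

lemma pr_lv (c : ℝ) (y : P) : pr (lv c y) = y := by
  funext i; fin_cases i <;> rfl

lemma lv_pr (x : V) : lv (x 2) (pr x) = x := by
  funext i; fin_cases i <;> rfl

lemma continuous_lv (c : ℝ) : Continuous (lv c) := by
  refine continuous_pi fun i => ?_
  fin_cases i
  · exact continuous_apply 0
  · exact continuous_apply 1
  · exact continuous_const

lemma continuous_pr : Continuous pr := by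
  refine continuous_pi fun i => ?_
  fin_cases i
  · exact continuous_apply 0
  · exact continuous_apply 1

lemma pl_lv (c : ℝ) (A : Set P) : PLOn (lv c) A :=
  pl_vec3 (pl_coord 0 A) (pl_coord 1 A) (plOn_const c A)

lemma pl_pr (A : Set V) : PLOn pr A := pl_vec2 (pl_coord 0 A) (pl_coord 1 A)

/-- two local sides, seen from every nearby point of `S` -/
def Two (S : Set V) (x : V) : Prop := ∃ B ∈ 𝓝 x, ∃ A A' : Set V, IsPreconnected A ∧
  IsPreconnected A' ∧ B \ S = A ∪ A' ∧ ∀ z ∈ B ∩ S, z ∈ closure A ∧ z ∈ closure A'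

lemma fl_mem_closure (s : ℝ) (hs : |s| = 1) {y : V} (hy : y ∈ cube 3 ∩ fl) :
    y ∈ closure (cube 3 ∩ {y | 0 < s * y 2}) := by
  have ht : Filter.Tendsto (fun t : ℝ => Function.update y 2 (t * s)) (𝓝[>] 0) (𝓝 y) := by
    have : Continuous (fun t : ℝ => Function.update y 2 (t * s)) := by fun_prop
    have h := this.tendsto 0
    have e : Function.update y 2 (0 * s) = y := by
      rw [zero_mul, ← mem_fl.1 hy.2, Function.update_eq_self]
    rw [e] at h
    exact h.mono_left nhdsWithin_le_nhds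
  refine mem_closure_of_tendsto ht ?_
  filter_upwards [Ioo_mem_nhdsGT (zero_lt_one (α := ℝ))] with t ht
  have hs2 : s * s = 1 := by rw [← abs_mul_abs_self, hs]; norm_num
  refine ⟨?_, ?_⟩
  · simp only [cube, mem_closedBall_zero_iff]
    rw [pi_norm_le_iff_of_nonneg zero_le_one]
    intro i
    by_cases hi : i = 2
    · subst hi
      rw [Function.update_self, Real.norm_eq_abs, abs_mul, hs, abs_of_pos ht.1]
      linarith [ht.2]
    · rw [Function.update_of_ne hi]
      exact (norm_le_pi_norm y i).trans (by simpa [cube] using hy.1)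
  · show 0 < s * Function.update y 2 (t * s) 2
    rw [Function.update_self]
    nlinarith [ht.1]

lemma chart_two {S B : Set V} (e : PLEquiv (cube 3) B) (h2 : B ∩ S = e.f '' (cube 3 ∩ fl)) :
    ∃ A A' : Set V, IsPreconnected A ∧ IsPreconnected A' ∧ B \ S = A ∪ A' ∧
      ∀ z ∈ B ∩ S, z ∈ closure A ∧ z ∈ closure A' := by
  refine ⟨e.f '' (cube 3 ∩ upo), e.f '' (cube 3 ∩ dno),
    convex_upo.isPreconnected.image _ (e.pf.1.mono inter_subset_left),
    convex_dno.isPreconnected.image _ (e.pf.1.mono inter_subset_left), ?_, ?_⟩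
  · have nd : ∀ y ∈ cube 3, y ∉ fl → e.f y ∉ S := by
      intro y hy hf hd
      have : e.f y ∈ e.f '' (cube 3 ∩ fl) := h2 ▸ ⟨e.mf hy, hd⟩
      obtain ⟨z, hz, hzy⟩ := this
      exact hf (e.injOn hz.1 hy hzy ▸ hz.2)
    ext z; constructor
    · rintro ⟨a, b⟩
      rcases cube_split (y := e.g z) with h | h | h
      · exact Or.inl ⟨_, ⟨e.mg a, h⟩, e.ri z a⟩
      · have : e.f (e.g z) ∈ B ∩ S := h2 ▸ ⟨_, ⟨e.mg a, h⟩, rfl⟩
        rw [e.ri z a] at this
        exact (b this.2).elim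
      · exact Or.inr ⟨_, ⟨e.mg a, h⟩, e.ri z a⟩
    · rintro (⟨y, hy, rfl⟩ | ⟨y, hy, rfl⟩)
      · exact ⟨e.mf hy.1, nd y hy.1 fun hf => (ne_of_gt (mem_upo.1 hy.2)) hf⟩
      · exact ⟨e.mf hy.1, nd y hy.1 fun hf => (ne_of_lt (mem_dno.1 hy.2)) hf⟩
  · intro z hz
    rw [h2] at hz
    obtain ⟨y, hy, rfl⟩ := hz
    have hc : ContinuousWithinAt e.f (cube 3) y := e.pf.1 y hy.1
    constructor
    · refine (hc.mono inter_subset_left).mem_closure_image ?_
      simpa [upo] using fl_mem_closure 1 (by simp) hy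
    · refine (hc.mono inter_subset_left).mem_closure_image ?_
      simpa [dno] using fl_mem_closure (-1) (by simp) hy

lemma FlatAt.two {S : Set V} {x : V} (h : FlatAt S x) : Two S x := by
  obtain ⟨B, e, -, hB, h2⟩ := h
  exact ⟨B, hB, chart_two e h2⟩

/-- an embedded plane at bounded distance from the floor -/
structure Pln (u : P → V) : Prop where
  cont : Continuous u
  inj : Function.Injective u
  bdd : ∃ C, ∀ y, ‖u y - lv 0 y‖ ≤ C

namespace Pln

variable {u : P → V}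

lemma coord (h : Pln u) : ∃ C, 0 ≤ C ∧ ∀ y, |u y 0 - y 0| ≤ C ∧ |u y 1 - y 1| ≤ C ∧ |u y 2| ≤ C := by
  obtain ⟨C, hC⟩ := h.bdd
  refine ⟨C, (norm_nonneg _).trans (hC 0), fun y => ?_⟩
  have := fun i => (norm_le_pi_norm (u y - lv 0 y) i).trans (hC y)
  exact ⟨by simpa using this 0, by simpa using this 1, by simpa using this 2⟩

lemma isClosedEmbedding (h : Pln u) : IsClosedEmbedding u := by
  obtain ⟨C, hC0, hC⟩ := h.coord
  refine IsClosedEmbedding.of_continuous_injective_isClosedMap h.cont h.inj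
    (IsProperMap.isClosedMap ?_)
  rw [isProperMap_iff_isCompact_preimage]
  refine ⟨h.cont, fun K hK => ?_⟩
  obtain ⟨R, hR⟩ := hK.isBounded.subset_closedBall 0
  refine (isCompact_closedBall (0 : P) (|R| + C)).of_isClosed_subset
    (hK.isClosed.preimage h.cont) fun y hy => ?_
  have h1 : ‖u y‖ ≤ R := by simpa using hR hy
  rw [mem_closedBall_zero_iff, pi_norm_le_iff_of_nonneg (by positivity)]
  have a0 := (norm_le_pi_norm (u y) 0).trans h1
  have a1 := (norm_le_pi_norm (u y) 1).trans h1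
  obtain ⟨b0, b1, -⟩ := hC y
  rw [Real.norm_eq_abs] at a0 a1
  have := le_abs_self R
  intro i
  rw [Real.norm_eq_abs]
  fin_cases i
  · show |y 0| ≤ _
    rw [abs_le] at *; constructor <;> linarith [a0.1, a0.2, b0.1, b0.2]
  · show |y 1| ≤ _
    rw [abs_le] at *; constructor <;> linarith [a1.1, a1.2, b1.1, b1.2]

lemma isClosed (h : Pln u) : IsClosed (range u) := h.isClosedEmbedding.isClosed_range

omit u in
lemma isOpen_joined {S : Set V} (hS : IsClosed S) (p : V → Prop) :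
    IsOpen {x | ∃ z, p z ∧ JoinedIn Sᶜ x z} := by
  rw [isOpen_iff_mem_nhds]
  rintro x ⟨z, hz, hj⟩
  filter_upwards [pathComponentIn_mem_nhds (hS.isOpen_compl.mem_nhds hj.source_mem)] with y hy
  exact ⟨z, hz, (show JoinedIn Sᶜ x y from hy).symm.trans hj⟩

omit u in
lemma isOpen_not_joined {S : Set V} (hS : IsClosed S) (p : V → Prop) :
    IsOpen (Sᶜ \ {x | ∃ z, p z ∧ JoinedIn Sᶜ x z}) := by
  rw [isOpen_iff_mem_nhds]
  rintro x ⟨hx, hn⟩
  filter_upwards [pathComponentIn_mem_nhds (hS.isOpen_compl.mem_nhds hx)] with y hy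
  have hj : JoinedIn Sᶜ x y := hy
  exact ⟨hj.target_mem, fun ⟨z, hz, hj'⟩ => hn ⟨z, hz, hj.trans hj'⟩⟩

lemma isOpen_Dn (h : Pln u) : IsOpen (Dn u) := isOpen_joined h.isClosed _
lemma isOpen_Up (h : Pln u) : IsOpen (Up u) := isOpen_joined h.isClosed _

lemma Dn_sub : Dn u ⊆ (range u)ᶜ := fun _ ⟨_, _, hj⟩ => hj.source_mem
lemma Up_sub : Up u ⊆ (range u)ᶜ := fun _ ⟨_, _, hj⟩ => hj.source_mem

lemma low {z : V} (hz : ∀ y, z 2 < u y 2) : z ∈ Dn u :=
  ⟨z, hz, JoinedIn.refl (by rintro ⟨y, rfl⟩; exact lt_irrefl _ (hz y))⟩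

lemma high {z : V} (hz : ∀ y, u y 2 < z 2) : z ∈ Up u :=
  ⟨z, hz, JoinedIn.refl (by rintro ⟨y, rfl⟩; exact lt_irrefl _ (hz y))⟩

lemma Dn_of_joined {x z : V} (hz : z ∈ Dn u) (hj : JoinedIn (range u)ᶜ x z) : x ∈ Dn u := by
  obtain ⟨w, hw, hj'⟩ := hz
  exact ⟨w, hw, hj.trans hj'⟩

lemma Up_of_joined {x z : V} (hz : z ∈ Up u) (hj : JoinedIn (range u)ᶜ x z) : x ∈ Up u := by
  obtain ⟨w, hw, hj'⟩ := hz
  exact ⟨w, hw, hj.trans hj'⟩

lemma exists_low (h : Pln u) : ∃ z : V, ∀ y, z 2 < u y 2 := by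
  obtain ⟨C, -, hC⟩ := h.coord
  exact ⟨lv (-C - 1) 0, fun y => by have := (abs_le.1 (hC y).2.2).1; simp; linarith⟩

lemma exists_high (h : Pln u) : ∃ z : V, ∀ y, u y 2 < z 2 := by
  obtain ⟨C, -, hC⟩ := h.coord
  exact ⟨lv (C + 1) 0, fun y => by have := (abs_le.1 (hC y).2.2).2; simp; linarith⟩

/-- **separation** (Poincaré–Miranda) -/
theorem disjoint (h : Pln u) : Disjoint (Dn u) (Up u) := by
  rw [disjoint_left]
  rintro x ⟨z, hz, hj⟩ ⟨z', hz', hj'⟩
  obtain ⟨γ, hγ⟩ := hj.symm.trans hj'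
  obtain ⟨C, hC0, hC⟩ := h.coord
  obtain ⟨M, hM⟩ := (isCompact_range γ.continuous).isBounded.subset_closedBall 0
  have hb : ∀ t : ℝ, ∀ i, |γ.extend t i| ≤ M := by
    intro t i
    have : γ.extend t ∈ range γ := by rw [← γ.extend_range]; exact mem_range_self t
    have h1 : ‖γ.extend t‖ ≤ M := by simpa using hM this
    exact (norm_le_pi_norm _ i).trans h1
  set R := C + M with hR
  let Y : V → P := fun w => ![R * w 0, R * w 1]
  let g : V → V := fun w => γ.extend ((w 2 + 1) / 2)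
  have cY : Continuous Y := by
    refine continuous_pi fun i => ?_
    fin_cases i <;> simp [Y] <;> fun_prop
  have cg : Continuous g := γ.continuous_extend.comp (by fun_prop)
  have cu : Continuous fun w => u (Y w) := h.cont.comp cY
  let f : V → V := fun w => ![u (Y w) 0 - g w 0, u (Y w) 1 - g w 1, g w 2 - u (Y w) 2]
  have cf : Continuous f := by
    refine continuous_pi fun i => ?_
    fin_cases i
    · exact ((continuous_apply 0).comp cu).sub ((continuous_apply 0).comp cg)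
    · exact ((continuous_apply 1).comp cu).sub ((continuous_apply 1).comp cg)
    · exact ((continuous_apply 2).comp cg).sub ((continuous_apply 2).comp cu)
  obtain ⟨w, -, hw⟩ := R202.poincare_miranda f cf.continuousOn (by
      intro w _ i hi
      obtain ⟨b0, b1, -⟩ := hC (Y w)
      fin_cases i
      · have e : Y w 0 = R := by show R * w 0 = R; rw [show w 0 = 1 from hi, mul_one]
        have := abs_le.1 (hb ((w 2 + 1) / 2) 0)
        rw [e, abs_le] at b0
        show 0 ≤ u (Y w) 0 - γ.extend ((w 2 + 1) / 2) 0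
        linarith [b0.1, this.2]
      · have e : Y w 1 = R := by show R * w 1 = R; rw [show w 1 = 1 from hi, mul_one]
        have := abs_le.1 (hb ((w 2 + 1) / 2) 1)
        rw [e, abs_le] at b1
        show 0 ≤ u (Y w) 1 - γ.extend ((w 2 + 1) / 2) 1
        linarith [b1.1, this.2]
      · show 0 ≤ γ.extend ((w 2 + 1) / 2) 2 - u (Y w) 2
        rw [show w 2 = 1 from hi, show ((1 : ℝ) + 1) / 2 = 1 by norm_num, γ.extend_one]
        linarith [hz' (Y w)]) (by
      intro w _ i hi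
      obtain ⟨b0, b1, -⟩ := hC (Y w)
      fin_cases i
      · have e : Y w 0 = -R := by show R * w 0 = -R; rw [show w 0 = -1 from hi]; ring
        have := abs_le.1 (hb ((w 2 + 1) / 2) 0)
        rw [e, abs_le] at b0
        show u (Y w) 0 - γ.extend ((w 2 + 1) / 2) 0 ≤ 0
        linarith [b0.2, this.1]
      · have e : Y w 1 = -R := by show R * w 1 = -R; rw [show w 1 = -1 from hi]; ring
        have := abs_le.1 (hb ((w 2 + 1) / 2) 1)
        rw [e, abs_le] at b1
        show u (Y w) 1 - γ.extend ((w 2 + 1) / 2) 1 ≤ 0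
        linarith [b1.2, this.1]
      · show γ.extend ((w 2 + 1) / 2) 2 - u (Y w) 2 ≤ 0
        rw [show w 2 = -1 from hi, show ((-1 : ℝ) + 1) / 2 = 0 by norm_num, γ.extend_zero]
        linarith [hz (Y w)])
  have e : g w = u (Y w) := by
    funext i
    fin_cases i
    · have : u (Y w) 0 - g w 0 = 0 := hw 0
      show g w 0 = u (Y w) 0
      linarith
    · have : u (Y w) 1 - g w 1 = 0 := hw 1
      show g w 1 = u (Y w) 1
      linarith
    · have : g w 2 - u (Y w) 2 = 0 := hw 2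
      show g w 2 = u (Y w) 2
      linarith
  have : g w ∈ range γ := by rw [← γ.extend_range]; exact mem_range_self _
  obtain ⟨t, ht⟩ := this
  exact hγ t (by rw [ht, e]; exact mem_range_self _)

omit u in
/-- an open piece of the complement is seen from every point of `S` -/
lemma all_closure {S O : Set V} (hS : IsPreconnected S) (hne : S.Nonempty) (hO : IsOpen O)
    (hOne : O.Nonempty) (hd : O ⊆ Sᶜ) (hO' : IsOpen (Sᶜ \ O)) (ht : ∀ x ∈ S, Two S x) :
    S ⊆ closure O := by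
  have h1 : (S ∩ closure O).Nonempty := by
    by_contra hem
    have hcl : IsClosed O := by
      rw [← closure_subset_iff_isClosed]
      intro x hx
      have hxS : x ∉ S := fun h => hem ⟨x, h, hx⟩
      by_contra hxO
      obtain ⟨y, hy1, hy2⟩ := mem_closure_iff.1 hx _ hO' ⟨hxS, hxO⟩
      exact hy1.2 hy2
    rcases isClopen_iff.1 ⟨hcl, hO⟩ with h | h
    · exact hOne.ne_empty h
    · obtain ⟨x, hx⟩ := hne
      exact hd (h ▸ mem_univ x) hx
  have key : ∀ x ∈ S ∩ closure O, ∃ B ∈ 𝓝 x, B ∩ S ⊆ closure O := by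
    rintro x ⟨hx, hxc⟩
    obtain ⟨B, hB, A, A', hA, hA', hBS, hcl⟩ := ht x hx
    refine ⟨B, hB, ?_⟩
    obtain ⟨p, hp1, hp2⟩ := mem_closure_iff_nhds.1 hxc B hB
    have hp : p ∈ A ∪ A' := hBS ▸ ⟨hp1, hd hp2⟩
    have sub : ∀ A₀ : Set V, IsPreconnected A₀ → A₀ ⊆ A ∪ A' → p ∈ A₀ → A₀ ⊆ O := by
      intro A₀ h0 hs hp0
      refine (h0.subset_left_of_subset_union hO hO' (disjoint_left.2 fun y a b => b.2 a) ?_
        ⟨p, hp0, hp2⟩)
      intro y hy
      have : y ∈ B \ S := hBS ▸ hs hy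
      by_cases hyO : y ∈ O
      · exact Or.inl hyO
      · exact Or.inr ⟨this.2, hyO⟩
    rcases hp with hp | hp
    · exact fun z hz => closure_mono (sub A hA subset_union_left hp) (hcl z hz).1
    · exact fun z hz => closure_mono (sub A' hA' subset_union_right hp) (hcl z hz).2
  let U : Set V := interior {x | x ∈ S → x ∈ closure O}
  have hU : S ∩ closure O ⊆ U := by
    intro x hx
    obtain ⟨B, hB, hs⟩ := key x hx
    exact mem_interior_iff_mem_nhds.2 (Filter.mem_of_superset hB fun y hy hyS => hs ⟨hy, hyS⟩)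
  by_contra hn
  obtain ⟨q, hq, hqn⟩ := not_subset.1 hn
  obtain ⟨x, hx⟩ := h1
  obtain ⟨w, hw1, hw2, hw3⟩ := hS U (closure O)ᶜ isOpen_interior isClosed_closure.isOpen_compl
    (fun y hy => by
      by_cases hc : y ∈ closure O
      · exact Or.inl (hU ⟨hy, hc⟩)
      · exact Or.inr hc) ⟨x, hx.1, hU hx⟩ ⟨q, hq, hqn⟩
  exact hw3 (interior_subset hw2 hw1)

/-- **the two sides** -/
theorem cover (h : Pln u) (ht : ∀ y, Two (range u) (u y)) :
    Dn u ∪ Up u = (range u)ᶜ ∧ range u ⊆ closure (Dn u) ∧ range u ⊆ closure (Up u) := by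
  have hS : IsPreconnected (range u) := isPreconnected_range h.cont
  have hne : (range u).Nonempty := range_nonempty u
  have ht' : ∀ x ∈ range u, Two (range u) x := by rintro _ ⟨y, rfl⟩; exact ht y
  obtain ⟨zl, hzl⟩ := h.exists_low
  obtain ⟨zh, hzh⟩ := h.exists_high
  have oD := h.isOpen_Dn
  have oU : IsOpen ((range u)ᶜ \ Dn u) := isOpen_not_joined h.isClosed _
  have c1 : range u ⊆ closure (Dn u) := all_closure hS hne oD ⟨zl, low hzl⟩ Dn_sub oU ht'
  have c2 : range u ⊆ closure (Up u) := all_closure hS hne h.isOpen_Up ⟨zh, high hzh⟩ Up_sub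
    (isOpen_not_joined h.isClosed _) ht'
  refine ⟨?_, c1, c2⟩
  have hUs : Up u ⊆ (range u)ᶜ \ Dn u := fun x hx =>
    ⟨Up_sub hx, fun hd => disjoint_left.1 h.disjoint hd hx⟩
  have hp : IsPreconnected ((range u)ᶜ \ Dn u) := by
    refine side_conn hS hne oU (disjoint_left.2 fun x a b => a.1 b) ?_ ?_
    · convert oD using 1
      ext x; simp only [mem_diff, mem_compl_iff]
      have := @Dn_sub u x
      simp only [mem_compl_iff] at this
      tauto
    · intro x hx
      obtain ⟨B, hB, A, A', hA, hA', hBS, hcl⟩ := ht' x hx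
      have dich : ∀ A₀ : Set V, IsPreconnected A₀ → A₀ ⊆ A ∪ A' →
          A₀ ⊆ Dn u ∨ A₀ ⊆ (range u)ᶜ \ Dn u := by
        intro A₀ h0 hs
        refine h0.subset_or_subset oD oU (disjoint_left.2 fun y a b => b.2 a) fun y hy => ?_
        have : y ∈ B \ range u := hBS ▸ hs hy
        by_cases hyO : y ∈ Dn u
        · exact Or.inl hyO
        · exact Or.inr ⟨this.2, hyO⟩
      obtain ⟨p, hp1, hp2⟩ := mem_closure_iff_nhds.1 (c1 hx) B hB
      obtain ⟨q, hq1, hq2⟩ := mem_closure_iff_nhds.1 (c2 hx) B hB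
      have hp : p ∈ A ∪ A' := hBS ▸ ⟨hp1, Dn_sub hp2⟩
      have hq : q ∈ A ∪ A' := hBS ▸ ⟨hq1, Up_sub hq2⟩
      have hxB := mem_of_mem_nhds hB
      have fin : ∀ A₀ A₁ : Set V, A₀ ∪ A₁ = A ∪ A' → A₀ ⊆ Dn u → A₁ ⊆ (range u)ᶜ \ Dn u →
          B ∩ ((range u)ᶜ \ Dn u) = A₁ := by
        intro A₀ A₁ e h0 h1
        ext y; constructor
        · rintro ⟨a, b, c⟩
          have : y ∈ A₀ ∪ A₁ := e ▸ hBS ▸ ⟨a, b⟩
          exact this.resolve_left fun h => c (h0 h)
        · intro hy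
          have : y ∈ B \ range u := hBS ▸ e ▸ Or.inr hy
          exact ⟨this.1, h1 hy⟩
      refine ⟨B, hB, ?_⟩
      rcases dich A hA subset_union_left with d1 | d1 <;>
        rcases dich A' hA' subset_union_right with d2 | d2
      · exact ((hUs hq2).2 (hq.elim (fun h => d1 h) fun h => d2 h)).elim
      · rw [fin A A' rfl d1 d2]; exact ⟨hA', (hcl x ⟨hxB, hx⟩).2⟩
      · rw [fin A' A (union_comm _ _) d2 d1]; exact ⟨hA, (hcl x ⟨hxB, hx⟩).1⟩
      · exact (hp.elim (fun h => (d1 h).2 hp2) fun h => (d2 h).2 hp2).elim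
  have hpc : IsPathConnected ((range u)ᶜ \ Dn u) :=
    oU.isConnected_iff_isPathConnected.1 ⟨⟨zh, hUs (high hzh)⟩, hp⟩
  refine Subset.antisymm (union_subset Dn_sub Up_sub) fun x hx => ?_
  by_cases hd : x ∈ Dn u
  · exact Or.inl hd
  · exact Or.inr (Up_of_joined (high hzh)
      ((hpc.joinedIn x ⟨hx, hd⟩ zh (hUs (high hzh))).mono diff_subset))

lemma isPreconnected_aux {S L : Set V} (hL : Convex ℝ L) (hLS : L ⊆ Sᶜ) :
    IsPreconnected {x | ∃ z, z ∈ L ∧ JoinedIn Sᶜ x z} := by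
  refine isPreconnected_of_forall_pair ?_
  rintro x ⟨z, hz, hj⟩ y ⟨z', hz', hj'⟩
  have hzz : JoinedIn Sᶜ z z' := ((hL.isPathConnected ⟨z, hz⟩).joinedIn z hz z' hz').mono hLS
  refine ⟨pathComponentIn Sᶜ x, fun w hw => ⟨z, hz, (show JoinedIn Sᶜ x w from hw).symm.trans hj⟩,
    mem_pathComponentIn_self hj.source_mem, (hj.trans hzz).trans hj'.symm,
    (isPathConnected_pathComponentIn hj.source_mem).isConnected.isPreconnected⟩

lemma isPreconnected_Dn : IsPreconnected (Dn u) := by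
  refine isPreconnected_aux (L := {z | ∀ y, z 2 < u y 2}) ?_ ?_
  · have : {z : V | ∀ y, z 2 < u y 2} = ⋂ y, {z : V | z 2 < u y 2} := by ext; simp
    rw [this]
    exact convex_iInter fun y => convex_halfSpace_lt (f := fun y : V => y 2)
      ⟨fun _ _ => rfl, fun _ _ => rfl⟩ _
  · rintro z hz ⟨y, rfl⟩; exact lt_irrefl _ (hz y)

lemma isPreconnected_Up : IsPreconnected (Up u) := by
  refine isPreconnected_aux (L := {z | ∀ y, u y 2 < z 2}) ?_ ?_
  · have : {z : V | ∀ y, u y 2 < z 2} = ⋂ y, {z : V | u y 2 < z 2} := by ext; simp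
    rw [this]
    exact convex_iInter fun y => convex_halfSpace_gt (f := fun y : V => y 2)
      ⟨fun _ _ => rfl, fun _ _ => rfl⟩ _
  · rintro z hz ⟨y, rfl⟩; exact lt_irrefl _ (hz y)

end Pln

/-- a plane with two sides -/
structure Pln2 (u : P → V) : Prop extends Pln u where
  two : ∀ y, Two (range u) (u y)

namespace Pln2

variable {u u' : P → V}

lemma tri (h : Pln2 u) (x : V) : x ∈ Dn u ∨ x ∈ range u ∨ x ∈ Up u := by
  by_cases hx : x ∈ range u
  · exact Or.inr (Or.inl hx)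
  · have : x ∈ Dn u ∪ Up u := (h.toPln.cover h.two).1 ▸ hx
    exact this.elim Or.inl fun h => Or.inr (Or.inr h)

lemma compl_Dn (h : Pln2 u) : (Dn u)ᶜ = Up u ∪ range u := by
  ext x; constructor
  · intro hx
    rcases h.tri x with a | a | a
    exacts [(hx a).elim, Or.inr a, Or.inl a]
  · rintro (a | a) b
    exacts [disjoint_left.1 h.toPln.disjoint b a, Pln.Dn_sub b a]

lemma compl_Up (h : Pln2 u) : (Up u)ᶜ = Dn u ∪ range u := by
  ext x; constructor
  · intro hx
    rcases h.tri x with a | a | a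
    exacts [Or.inl a, Or.inr a, (hx a).elim]
  · rintro (a | a) b
    exacts [disjoint_left.1 h.toPln.disjoint a b, Pln.Up_sub b a]

lemma isClosed_Up (h : Pln2 u) : IsClosed (Up u ∪ range u) :=
  h.compl_Dn ▸ h.toPln.isOpen_Dn.isClosed_compl

lemma isClosed_Dn (h : Pln2 u) : IsClosed (Dn u ∪ range u) :=
  h.compl_Up ▸ h.toPln.isOpen_Up.isClosed_compl

lemma cl_Dn (h : Pln2 u) (y : P) : u y ∈ closure (Dn u) :=
  (h.toPln.cover h.two).2.1 (mem_range_self y)

lemma cl_Up (h : Pln2 u) (y : P) : u y ∈ closure (Up u) :=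
  (h.toPln.cover h.two).2.2 (mem_range_self y)

/-- a connected set missing the plane lies on one side -/
lemma sub_Dn (h : Pln2 u) {A : Set V} (hA : IsPreconnected A) (hd : A ⊆ (range u)ᶜ) {x : V}
    (hx : x ∈ A) (hx' : x ∈ Dn u) : A ⊆ Dn u :=
  hA.subset_left_of_subset_union h.toPln.isOpen_Dn h.toPln.isOpen_Up h.toPln.disjoint
    ((h.toPln.cover h.two).1 ▸ hd) ⟨x, hx, hx'⟩

lemma sub_Up (h : Pln2 u) {A : Set V} (hA : IsPreconnected A) (hd : A ⊆ (range u)ᶜ) {x : V}
    (hx : x ∈ A) (hx' : x ∈ Up u) : A ⊆ Up u :=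
  hA.subset_right_of_subset_union h.toPln.isOpen_Dn h.toPln.isOpen_Up h.toPln.disjoint
    ((h.toPln.cover h.two).1 ▸ hd) ⟨x, hx, hx'⟩

/-- order of two planes -/
lemma Dn_mono (h : Pln2 u) (h' : Pln2 u') (hle : range u' ⊆ Up u ∪ range u) : Dn u ⊆ Dn u' := by
  obtain ⟨z, hz⟩ := h.toPln.exists_low
  obtain ⟨z', hz'⟩ := h'.toPln.exists_low
  refine h'.sub_Dn Pln.isPreconnected_Dn (fun x hx hr => ?_) (x := lv (min (z 2) (z' 2)) 0)
    (Pln.low fun y => lt_of_le_of_lt (min_le_left _ _) (hz y))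
    (Pln.low fun y => lt_of_le_of_lt (min_le_right _ _) (hz' y))
  have : x ∈ (Dn u)ᶜ := h.compl_Dn ▸ hle hr
  exact this hx

lemma Up_mono (h : Pln2 u) (h' : Pln2 u') (hle : range u ⊆ Dn u' ∪ range u') : Up u' ⊆ Up u := by
  obtain ⟨z, hz⟩ := h.toPln.exists_high
  obtain ⟨z', hz'⟩ := h'.toPln.exists_high
  refine h.sub_Up Pln.isPreconnected_Up (fun x hx hr => ?_) (x := lv (max (z 2) (z' 2)) 0)
    (Pln.high fun y => lt_of_lt_of_le (hz' y) (le_max_right _ _))
    (Pln.high fun y => lt_of_lt_of_le (hz y) (le_max_left _ _))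
  have : x ∈ (Up u')ᶜ := h'.compl_Up ▸ hle hr
  exact this hx

omit u' in
lemma retr_aux (h : Pln2 u) {A B : Set V} (hA : IsClosed A) (hB : IsClosed B)
    (hc : A ∪ B = univ) (hi : A ∩ B ⊆ range u) :
    ∃ r : V → V, Continuous r ∧ (∀ x ∈ A, r x = x) ∧ ∀ x ∈ B, r x ∈ range u := by
  classical
  obtain ⟨g, hg⟩ := (ContinuousMap.id P).exists_extension' h.toPln.isClosedEmbedding
  have hg' : ∀ x ∈ range u, u (g x) = x := by
    rintro _ ⟨y, rfl⟩
    exact congrArg u (congrFun hg y)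
  refine ⟨fun x => if x ∈ A then x else u (g x), ?_, fun x hx => if_pos hx, fun x hx => ?_⟩
  · rw [← continuousOn_univ, ← hc]
    refine ContinuousOn.union_of_isClosed ?_ ?_ hA hB
    · exact continuousOn_id.congr fun x hx => if_pos hx
    · refine (h.cont.comp g.continuous).continuousOn.congr fun x hx => ?_
      by_cases hxA : x ∈ A
      · simp only [if_pos hxA]; exact (hg' x (hi ⟨hxA, hx⟩)).symm
      · simp only [if_neg hxA]; rfl
  · by_cases hxA : x ∈ A
    · simp only [if_pos hxA]; exact hi ⟨hxA, hx⟩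
    · simp only [if_neg hxA]; exact mem_range_self _

lemma sides_union (h : Pln2 u) : (Up u ∪ range u) ∪ (Dn u ∪ range u) = univ := by
  refine eq_univ_of_forall fun x => ?_
  rcases h.tri x with a | a | a
  exacts [Or.inr (Or.inl a), Or.inl (Or.inr a), Or.inl (Or.inl a)]

lemma sides_inter (h : Pln2 u) : (Up u ∪ range u) ∩ (Dn u ∪ range u) ⊆ range u := by
  rintro x ⟨a | a, b | b⟩
  exacts [(disjoint_left.1 h.toPln.disjoint b a).elim, b, a, a]

/-- **retraction onto the closed region between two planes** -/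
theorem exists_retr (h : Pln2 u) (h' : Pln2 u') (hle : range u' ⊆ Up u ∪ range u) :
    ∃ r : V → V, Continuous r ∧ (∀ x, r x ∈ (Up u ∪ range u) ∩ (Dn u' ∪ range u')) ∧
      ∀ x ∈ (Up u ∪ range u) ∩ (Dn u' ∪ range u'), r x = x := by
  obtain ⟨r, c, r1, r2⟩ := h.retr_aux h.isClosed_Up h.isClosed_Dn h.sides_union h.sides_inter
  obtain ⟨s, c', s1, s2⟩ := h'.retr_aux h'.isClosed_Dn h'.isClosed_Up
    (by rw [union_comm]; exact h'.sides_union) (by rw [inter_comm]; exact h'.sides_inter)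
  refine ⟨fun x => s (r x), c'.comp c, fun x => ?_, fun x hx => by
    show s (r x) = x
    rw [r1 x hx.1, s1 x hx.2]⟩
  show s (r x) ∈ _
  have h1 : r x ∈ Up u ∪ range u := by
    rcases h.tri x with a | a | a
    · exact Or.inr (r2 x (Or.inl a))
    · exact Or.inr (r2 x (Or.inr a))
    · rw [r1 x (Or.inl a)]; exact Or.inl a
  rcases h'.tri (r x) with a | a | a
  · rw [s1 _ (Or.inl a)]; exact ⟨h1, Or.inl a⟩
  · rw [s1 _ (Or.inr a)]; exact ⟨h1, Or.inr a⟩
  · exact ⟨hle (s2 _ (Or.inl a)), Or.inr (s2 _ (Or.inl a))⟩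

end Pln2

end Crest.Agent.X212.Prd34
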