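import Crest.Agent.X212.Thk1.TMain
import Crest.Agent.X212.Tor42.Main
import Crest.Agent.X212.Deh83.Main
import Crest.Agent.X212.Anb49.Main
import Crest.Agent.X212.Srf12.AnnR
import Crest.Agent.X212.Srf12.Dic

/-!
# X212 / T layer closed (helper34)
-/

set_option autoImplicit false

namespace Crest.Agent.X212.Prd34

open Crest.Agent.X212.Lev33

/-- **Dehn's lemma** -/
theorem dehnStmt : DehnStmt := Deh83.dehn Thk1.ltc Anb49.anbStmt

/-- **PL handle straightening in dimension three** -/
theorem plhsAll (K : Finset (Fin 3)) : PLHS K :=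
  plhs Thk1.flatStmt dehnStmt Thk1.thickStmt (rung1Stmt Thk1.lt Srf12.sphStmt Srf12.annRec)
    (Tor42.rung0 Lvf3.lev Thk1.inc Srf12.annRec (fun _ h hc hn => h.nonsep hc hn)
      fun _ _ _ _ _ _ h hd l₁ l₂ hc h1 => h.bdsum hd l₁.circ l₂.circ hc h1)
    (annStmt Thk1.lt Srf12.sphStmt Srf12.annRec) K

theorem tame : Skel83.Tame := Glb47.tame plhsAll

theorem smooth : Skel83.Smooth := Glb47.smooth plhsAll

/-- **layer T** -/
theorem goal (C : Skel83.Core) : Skel83.Goal := Glb47.goal plhsAll C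

end Crest.Agent.X212.Prd34
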