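import Crest.Agent.X212.Prd34.Blk1

/-!
# X212 / T layer: Z-shaped planes through a vertical annulus (helper34)
-/

set_option autoImplicit false

open Set Metric Topology

namespace Crest.Agent.X212.Prd34

open Crest.Agent.R096.Ce_537 Crest.Agent.X212.Lad50

lemma eta2 (y : P) : ![y 0, y 1] = y := by funext i; fin_cases i <;> rfl

lemma mem_lat_two {l : V} : l ∈ lat {0, 1} ↔ ∃ k m : ℤ, l = ![(k : ℝ), (m : ℝ), 0] := by
  constructor
  · intro h
    obtain ⟨k, hk⟩ := (h 0).1 (by decide)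
    obtain ⟨m, hm⟩ := (h 1).1 (by decide)
    have := (h 2).2 (by decide)
    exact ⟨k, m, by funext i; fin_cases i; exacts [hk, hm, this]⟩
  · rintro ⟨k, m, rfl⟩ i
    fin_cases i <;> simp

lemma collapse {Z : Set V} (hZ : IsClosed Z) {φ : P → V} (hφ : IsClosedEmbedding φ) {π : P → P}
    (hπ : Continuous π) (h1 : ∀ y, φ (π y) ∈ Z) (h2 : ∀ y, φ y ∈ Z → π y = y) :
    ∃ ρ : V → V, ContinuousOn ρ (Z ∪ range φ) ∧ (∀ x, ρ x ∈ Z) ∧ ∀ x ∈ Z, ρ x = x := by
  classical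
  obtain ⟨g, hg⟩ := (ContinuousMap.id P).exists_extension' hφ
  refine ⟨fun x => if x ∈ Z then x else φ (π (g x)), ?_, fun x => ?_, fun x hx => if_pos hx⟩
  · refine ContinuousOn.union_of_isClosed ?_ ?_ hZ hφ.isClosed_range
    · exact continuousOn_id.congr fun x hx => if_pos hx
    · refine (hφ.continuous.comp (hπ.comp g.continuous)).continuousOn.congr ?_
      rintro _ ⟨y, rfl⟩
      by_cases hx : φ y ∈ Z
      · have e : g (φ y) = y := congrFun hg y
        simp only [if_pos hx, Function.comp, e, h2 y hx]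
      · simp only [if_neg hx]; rfl
  · by_cases hx : x ∈ Z
    · simpa only [if_pos hx] using hx
    · simpa only [if_neg hx] using h1 _

/-- two consecutive tori -/
structure Ctx (H : V → V) (c : ℝ) (u u' : P → V) : Prop where
  hF : FlatStmt
  hH : Per {0, 1} H
  hu : Rung ∅ {0, 1} H c (1 / 3) u
  hu' : Rung ∅ {0, 1} H (c + 1) (1 / 3) u'

/-- a vertical annulus at level `t` -/
structure Str (H : V → V) (u u' : P → V) (t : ℝ) (a : P → V) : Prop where
  cont : ContinuousOn a strip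
  per : ∀ y ∈ strip, ∀ m : ℤ, a ![y 0 + m, y 1] = a y + ![(m : ℝ), 0, 0]
  bot : ∀ s, a ![s, 0] = u ![s, t]
  top : ∀ s, a ![s, 1] = u' ![s, t]
  mid : ∀ y : P, 0 < y 1 → y 1 < 1 → a y ∈ Up u ∩ Dn u'
  pl : LPL (fun y => H (a y)) strip
  fib : ∀ y ∈ strip, ∀ y' ∈ strip, H (a y) = H (a y') ↔ y 1 = y' 1 ∧ ∃ m : ℤ, y 0 - y' 0 = m

open Classical in
/-- the Z-shaped plane -/
noncomputable def zp (u u' : P → V) (t : ℝ) (a : P → V) (y : P) : V :=
  if y 1 ≤ 0 then u' ![y 0, t + y 1] else if y 1 ≤ 1 then a ![y 0, 1 - y 1] else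
    u ![y 0, t + y 1 - 1]

variable {H : V → V} {c t t' : ℝ} {u u' a a' : P → V}

lemma Rung.shift {K : Finset (Fin 3)} {δ : ℝ} (hu : Rung K {0, 1} H c δ u) (s τ : ℝ) (k m : ℤ) :
    u ![s + k, τ + m] = u ![s, τ] + ![(k : ℝ), (m : ℝ), 0] := by
  have := hu.eqv ![s, τ] ![k, m] (mem_lat_two.2 ⟨k, m, rfl⟩)
  rw [show (![s, τ] + ![(k : ℝ), (m : ℝ)] : P) = ![s + k, τ + m] by funext i; fin_cases i <;> rfl] at this
  exact this

namespace Ctx

lemma p (C : Ctx H c u u') : Pln3 u := C.hu.pln3 C.hF (by simp) C.hH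
lemma p' (C : Ctx H c u u') : Pln3 u' := C.hu'.pln3 C.hF (by simp) C.hH
lemma ud (C : Ctx H c u u') (y : P) : u y ∈ Dn u' := C.hu.sub_Dn C.hu' (by linarith) y
lemma uu (C : Ctx H c u u') (y : P) : u' y ∈ Up u := C.hu.sub_Up C.hu' (by linarith) y
lemma ne (C : Ctx H c u u') (y y' : P) : u y ≠ u' y' := fun e => Pln.Dn_sub (C.ud y) ⟨y', e.symm⟩

end Ctx

namespace Str

lemma cases (S : Str H u u' t a) {y : P} (hy : y ∈ strip) :
    (y 1 = 0 ∧ a y = u ![y 0, t]) ∨ (y 1 = 1 ∧ a y = u' ![y 0, t]) ∨ a y ∈ Up u ∩ Dn u' := by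
  rcases hy.1.eq_or_lt with h | h
  · exact Or.inl ⟨h.symm, by rw [← S.bot, h, eta2]⟩
  rcases hy.2.eq_or_lt with h' | h'
  · exact Or.inr (Or.inl ⟨h', by rw [← S.top, ← h', eta2]⟩)
  · exact Or.inr (Or.inr (S.mid y h h'))

lemma eq_u (S : Str H u u' t a) (C : Ctx H c u u') {y w : P} (hy : y ∈ strip) (e : a y = u w) :
    y 1 = 0 ∧ w = ![y 0, t] := by
  rcases S.cases hy with h | h | h
  · exact ⟨h.1, C.hu.inj (e.symm.trans h.2)⟩
  · exact (C.ne _ _ (e.symm.trans h.2)).elim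
  · exact (Pln.Up_sub h.1 ⟨w, e.symm⟩).elim

lemma eq_u' (S : Str H u u' t a) (C : Ctx H c u u') {y w : P} (hy : y ∈ strip) (e : a y = u' w) :
    y 1 = 1 ∧ w = ![y 0, t] := by
  rcases S.cases hy with h | h | h
  · exact (C.ne _ _ (h.2.symm.trans e)).elim
  · exact ⟨h.1, C.hu'.inj (e.symm.trans h.2)⟩
  · exact (Pln.Dn_sub h.2 ⟨w, e.symm⟩).elim

lemma inj (S : Str H u u' t a) : InjOn a strip := by
  intro y hy y' hy' e
  obtain ⟨h1, m, hm⟩ := (S.fib y hy y' hy').1 (congrArg H e)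
  have h2 := S.per y' hy' m
  rw [← hm, add_sub_cancel, ← h1, eta2, e] at h2
  have h3 : y 0 - y' 0 = 0 := by simpa using congrFun h2 0
  rw [← eta2 y, ← eta2 y', h1, sub_eq_zero.1 h3]

lemma bdd (S : Str H u u' t a) : ∃ C, ∀ y ∈ strip, ‖a y - lv 0 y‖ ≤ C := by
  have hc : IsCompact (closedBall (0 : P) 1 ∩ strip) := (isCompact_closedBall _ _).inter_right
    ((isClosed_le continuous_const (continuous_apply 1)).inter
      (isClosed_le (continuous_apply 1) continuous_const))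
  obtain ⟨C, hC⟩ := hc.exists_bound_of_continuousOn (f := fun y => a y - lv 0 y)
    ((S.cont.mono inter_subset_right).sub (continuous_lv 0).continuousOn)
  refine ⟨C, fun y hy => ?_⟩
  have h1 := Int.floor_le (y 0)
  have h2 := Int.lt_floor_add_one (y 0)
  have h3 := hC ![y 0 + (-⌊y 0⌋ : ℤ), y 1] ⟨by
    rw [mem_closedBall_zero_iff, norm_vec2, max_le_iff, abs_le, abs_le]
    push_cast
    exact ⟨⟨by linarith, by linarith⟩, by linarith [hy.1], hy.2⟩, hy⟩
  rw [S.per y hy] at h3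
  refine le_of_eq_of_le (congrArg _ ?_) h3
  funext i; fin_cases i <;> simp <;> rfl

lemma lo {y : P} (h : y 1 ≤ 0) : zp u u' t a y = u' ![y 0, t + y 1] := if_pos h

lemma md (S : Str H u u' t a) {y : P} (h : y ∈ strip) : zp u u' t a y = a ![y 0, 1 - y 1] := by
  rcases h.1.eq_or_lt with h0 | h0
  · rw [lo h0.ge, ← h0, sub_zero, add_zero, S.top]
  · unfold zp; rw [if_neg (not_le.2 h0), if_pos h.2]

lemma hi (S : Str H u u' t a) {y : P} (h : 1 ≤ y 1) : zp u u' t a y = u ![y 0, t + y 1 - 1] := by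
  rcases h.eq_or_lt with h0 | h0
  · rw [S.md ⟨by linarith, h0.ge⟩, ← h0, sub_self, add_sub_cancel_right, S.bot]
  · unfold zp; rw [if_neg (by linarith), if_neg (not_le.2 h0)]

lemma flip_mem {y : P} (h : y ∈ strip) : (![y 0, 1 - y 1] : P) ∈ strip :=
  ⟨by simpa using h.2, by simpa using h.1⟩

lemma img (S : Str H u u' t a) : zp u u' t a '' strip = a '' strip := by
  apply Subset.antisymm
  · rintro _ ⟨y, hy, rfl⟩; exact ⟨_, flip_mem hy, (S.md hy).symm⟩
  · rintro _ ⟨y, hy, rfl⟩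
    exact ⟨_, flip_mem hy, (S.md (flip_mem hy)).trans (congrArg a (by simpa using eta2 y))⟩

lemma mem_range (S : Str H u u' t a) {x : V} : x ∈ range (zp u u' t a) ↔
    (∃ y : P, y 1 ≤ t ∧ u' y = x) ∨ x ∈ a '' strip ∨ ∃ y : P, t ≤ y 1 ∧ u y = x := by
  constructor
  · rintro ⟨y, rfl⟩
    rcases le_total (y 1) 0 with h | h
    · exact Or.inl ⟨_, by simpa using h, (lo h).symm⟩
    rcases le_total (y 1) 1 with h' | h'
    · exact Or.inr (Or.inl (S.img ▸ ⟨y, ⟨h, h'⟩, rfl⟩))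
    · exact Or.inr (Or.inr ⟨_, by simp; linarith, (S.hi h').symm⟩)
  · rintro (⟨y, hy, rfl⟩ | h | ⟨y, hy, rfl⟩)
    · exact ⟨![y 0, y 1 - t], (lo (by simpa using hy)).trans (congrArg u' (by simpa using eta2 y))⟩
    · exact image_subset_range _ _ (S.img.symm ▸ h)
    · refine ⟨![y 0, y 1 - t + 1], (S.hi (by simpa using hy)).trans (congrArg u ?_)⟩
      rw [← eta2 y]; simp; ring

lemma glue (S : Str H u u' t a) (Q : (P → V) → Set P → Prop) (G : V → V)
    (un : ∀ f A A', Q f A → Q f A' → IsClosed A → IsClosed A' → Q f (A ∪ A'))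
    (cg : ∀ f g A A', Q f A → A' ⊆ A → EqOn g f A' → Q g A')
    (q1 : Q (fun y => G (u' ![y 0, t + y 1])) univ) (q2 : Q (fun y => G (a ![y 0, 1 - y 1])) strip)
    (q3 : Q (fun y => G (u ![y 0, t + y 1 - 1])) univ) :
    Q (fun y => G (zp u u' t a y)) univ := by
  have c1 : IsClosed {y : P | y 1 ≤ 0} := isClosed_le (continuous_apply 1) continuous_const
  have c3 : IsClosed {y : P | 1 ≤ y 1} := isClosed_le continuous_const (continuous_apply 1)
  have c2 : IsClosed strip := (isClosed_le continuous_const (continuous_apply 1)).inter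
    (isClosed_le (continuous_apply 1) continuous_const)
  refine cg _ _ _ _ (un _ _ _ (cg _ _ _ _ q1 (subset_univ _) fun y hy => congrArg G (lo hy))
    (un _ _ _ (cg _ _ _ _ q2 Subset.rfl fun y hy => congrArg G (S.md hy))
      (cg _ _ _ _ q3 (subset_univ _) fun y hy => congrArg G (S.hi hy)) c2 c3) c1 (c2.union c3))
    (fun y _ => ?_) fun _ _ => rfl
  rcases le_total (y 1) 0 with h | h
  · exact Or.inl h
  · exact Or.inr ((le_total (y 1) 1).imp_left fun h' => ⟨h, h'⟩)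

theorem pln (S : Str H u u' t a) (C : Ctx H c u u') : Pln3 (zp u u' t a) := by
  have f1 : PLOn (fun y : P => (![y 0, t + y 1] : P)) univ :=
    pl_vec2 (pl_coord 0 _) (pl_add (plOn_const _ _) (pl_coord 1 _))
  have f2 : PLOn (fun y : P => (![y 0, 1 - y 1] : P)) strip :=
    pl_vec2 (pl_coord 0 _) (pl_sub (plOn_const _ _) (pl_coord 1 _))
  have f3 : PLOn (fun y : P => (![y 0, t + y 1 - 1] : P)) univ :=
    pl_vec2 (pl_coord 0 _) (pl_sub (pl_add (plOn_const _ _) (pl_coord 1 _)) (plOn_const _ _))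
  refine Pln.pln3 C.hF C.hH ⟨continuousOn_univ.1 (S.glue ContinuousOn id
    (fun f A A' h h' => h.union_of_isClosed h') (fun f g A A' h hs e => (h.mono hs).congr e)
    (C.hu'.cont.comp_continuousOn f1.1) (S.cont.comp f2.1 fun y hy => flip_mem hy)
    (C.hu.cont.comp_continuousOn f3.1)), ?_, ?_⟩
    ((S.glue LPL H (fun f A A' h h' => h.union h') (fun f g A A' h hs e => (h.mono hs).congr e)
      ((lpl_of_locPL C.hu'.pl).comp (lpl_of_plOn f1) (mapsTo_univ _ _))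
      (S.pl.comp (lpl_of_plOn f2) fun y hy => flip_mem hy)
      ((lpl_of_locPL C.hu.pl).comp (lpl_of_plOn f3) (mapsTo_univ _ _))).locPL isOpen_univ)
  · have cs : ∀ y : P, y 1 ≤ 0 ∨ (y ∈ strip ∧ 0 < y 1 ∧ y 1 < 1) ∨ 1 ≤ y 1 := fun y => by
      rcases le_or_gt (y 1) 0 with h | h
      · exact Or.inl h
      · exact Or.inr ((lt_or_ge (y 1) 1).imp_left fun h' => ⟨⟨h.le, h'.le⟩, h, h'⟩)
    have fin : ∀ {y y' : P} {s s' : ℝ}, (![y 0, s] : P) = ![y' 0, s'] → (s = s' → y 1 = y' 1) →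
        y = y' := fun {y y' s s'} e h => by
      rw [← eta2 y, ← eta2 y', h (congrFun e 1), show y 0 = y' 0 from congrFun e 0]
    intro y y' e
    rcases cs y with h | ⟨h, h0, h1⟩ | h <;> rcases cs y' with k | ⟨k, k0, k1⟩ | k
    · rw [lo h, lo k] at e; exact fin (C.hu'.inj e) fun _ => by linarith
    · rw [lo h, S.md k] at e
      have : 1 - y' 1 = 1 := (S.eq_u' C (flip_mem k) e.symm).1
      linarith
    · rw [lo h, S.hi k] at e; exact (C.ne _ _ e.symm).elim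
    · rw [S.md h, lo k] at e
      have : 1 - y 1 = 1 := (S.eq_u' C (flip_mem h) e).1
      linarith
    · rw [S.md h, S.md k] at e
      exact fin (S.inj (flip_mem h) (flip_mem k) e) fun _ => by linarith
    · rw [S.md h, S.hi k] at e
      have : 1 - y 1 = 0 := (S.eq_u C (flip_mem h) e).1
      linarith
    · rw [S.hi h, lo k] at e; exact (C.ne _ _ e).elim
    · rw [S.hi h, S.md k] at e
      have : 1 - y' 1 = 0 := (S.eq_u C (flip_mem k) e.symm).1
      linarith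
    · rw [S.hi h, S.hi k] at e; exact fin (C.hu.inj e) fun _ => by linarith
  · obtain ⟨C1, h1⟩ := C.p.bdd
    obtain ⟨C2, h2⟩ := C.p'.bdd
    obtain ⟨C3, h3⟩ := S.bdd
    have key : ∀ (x : V) (y : P) (s D : ℝ), ‖x - lv 0 ![y 0, s]‖ ≤ D → |s - y 1| ≤ |t| + 1 →
        ‖x - lv 0 y‖ ≤ D + (|t| + 1) := by
      intro x y s D h h'
      have : ‖lv 0 ![y 0, s] - lv 0 y‖ ≤ |t| + 1 := by
        rw [pi_norm_le_iff_of_nonneg (by positivity)]
        intro i; fin_cases i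
        · simp; positivity
        · simpa using h'
        · simp; positivity
      linarith [norm_sub_le_norm_sub_add_norm_sub x (lv 0 ![y 0, s]) (lv 0 y)]
    refine ⟨max C1 (max C2 C3) + (|t| + 1), fun y => ?_⟩
    have t1 := le_abs_self t
    have t2 := neg_abs_le t
    rcases le_total (y 1) 0 with h | h
    · rw [lo h]
      exact key _ _ _ _ ((h2 _).trans (by simp)) (abs_le.2 ⟨by linarith, by linarith⟩)
    rcases le_total (y 1) 1 with h' | h'
    · rw [S.md ⟨h, h'⟩]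
      exact key _ _ _ _ ((h3 _ (flip_mem ⟨h, h'⟩)).trans (by simp))
        (abs_le.2 ⟨by linarith, by linarith⟩)
    · rw [S.hi h']
      exact key _ _ _ _ ((h1 _).trans (by simp)) (abs_le.2 ⟨by linarith, by linarith⟩)

lemma isClosed (S : Str H u u' t a) (C : Ctx H c u u') : IsClosed (a '' strip) :=
  S.img ▸ (S.pln C).isClosedEmbedding.isClosedMap _
    ((isClosed_le continuous_const (continuous_apply 1)).inter
      (isClosed_le (continuous_apply 1) continuous_const))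

lemma sub_blk (S : Str H u u' t a) (C : Ctx H c u u') {x : V} (hx : x ∈ range (zp u u' t a)) :
    x ∈ (Up u ∪ range u) ∩ (Dn u' ∪ range u') := by
  rcases S.mem_range.1 hx with ⟨y, -, rfl⟩ | ⟨y, hy, rfl⟩ | ⟨y, -, rfl⟩
  · exact ⟨Or.inl (C.uu y), Or.inr ⟨y, rfl⟩⟩
  · rcases S.cases hy with h | h | h
    · exact h.2 ▸ ⟨Or.inr ⟨_, rfl⟩, Or.inl (C.ud _)⟩
    · exact h.2 ▸ ⟨Or.inl (C.uu _), Or.inr ⟨_, rfl⟩⟩
    · exact ⟨Or.inl h.1, Or.inl h.2⟩
  · exact ⟨Or.inr ⟨y, rfl⟩, Or.inl (C.ud y)⟩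

lemma Dn_u (S : Str H u u' t a) (C : Ctx H c u u') : Dn u ⊆ Dn (zp u u' t a) :=
  C.p.toPln2.Dn_mono (S.pln C).toPln2 fun _ hx => (S.sub_blk C hx).1

lemma Up_u' (S : Str H u u' t a) (C : Ctx H c u u') : Up u' ⊆ Up (zp u u' t a) :=
  (S.pln C).toPln2.Up_mono C.p'.toPln2 fun _ hx => (S.sub_blk C hx).2

lemma Up_u (S : Str H u u' t a) (C : Ctx H c u u') : Up (zp u u' t a) ⊆ Up u :=
  C.p.toPln2.Up_mono (S.pln C).toPln2 (C.p.toPln2.le_Dn (S.pln C).toPln2 (S.Dn_u C))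

lemma Dn_u' (S : Str H u u' t a) (C : Ctx H c u u') : Dn (zp u u' t a) ⊆ Dn u' :=
  (S.pln C).toPln2.Dn_mono C.p'.toPln2 ((S.pln C).toPln2.le_Up C.p'.toPln2 (S.Up_u' C))

/-- **order of two Z-planes** -/
theorem le (S : Str H u u' t a) (S' : Str H u u' t' a') (C : Ctx H c u u') (h : t < t')
    (hd : ∀ y ∈ strip, ∀ y' ∈ strip, a y ≠ a' y') :
    range (zp u u' t' a') ⊆ Up (zp u u' t a) ∪ range (zp u u' t a) := by
  have l1 := (S.pln C).toPln2.le_Up C.p'.toPln2 (S.Up_u' C)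
  intro x hx
  rcases S'.mem_range.1 hx with ⟨y, -, rfl⟩ | ⟨y, hy, rfl⟩ | ⟨y, hy, rfl⟩
  · exact l1 ⟨y, rfl⟩
  · rcases hy.1.eq_or_lt with h0 | h0
    · refine Or.inr (S.mem_range.2 (Or.inr (Or.inr ⟨![y 0, t'], h.le, ?_⟩)))
      rw [← S'.bot, h0, eta2]
    · have cv : Convex ℝ {y : P | 0 < y 1 ∧ y 1 ≤ 1} :=
        (convex_halfSpace_gt (f := fun y : P => y 1) ⟨fun _ _ => rfl, fun _ _ => rfl⟩ 0).inter
          (convex_halfSpace_le (f := fun y : P => y 1) ⟨fun _ _ => rfl, fun _ _ => rfl⟩ 1)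
      have nd : a' '' {y : P | 0 < y 1 ∧ y 1 ≤ 1} ⊆ (range (zp u u' t a))ᶜ := by
        rintro _ ⟨z, hz, rfl⟩ hr
        have hz' : z ∈ strip := ⟨hz.1.le, hz.2⟩
        rcases S.mem_range.1 hr with ⟨w, hw, e⟩ | ⟨w, hw, e⟩ | ⟨w, -, e⟩
        · have : w 1 = t' := congrFun (S'.eq_u' C hz' e.symm).2 1
          linarith
        · exact hd w hw z hz' e
        · exact hz.1.ne' (S'.eq_u C hz' e.symm).1
      have m : a' ![0, 1] ∈ a' '' {y : P | 0 < y 1 ∧ y 1 ≤ 1} := ⟨_, ⟨by simp, by simp⟩, rfl⟩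
      exact Or.inl ((S.pln C).toPln2.sub_Up (cv.isPreconnected.image _
        (S'.cont.mono fun z hz => ⟨hz.1.le, hz.2⟩)) nd m
        ((l1 ⟨_, (S'.top 0).symm⟩).resolve_right (nd m)) ⟨y, ⟨h0, hy.2⟩, rfl⟩)
  · exact Or.inr (S.mem_range.2 (Or.inr (Or.inr ⟨y, h.le.trans hy, rfl⟩)))

/-- translation of Z-planes -/
lemma shift (S : Str H u u' t a) (S' : Str H u u' t' a') (C : Ctx H c u u') (k m : ℤ)
    (ht : t' = t + m) (ha : ∀ y, a' y = a y + ![0, (m : ℝ), 0]) (x : V)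
    (hx : x + ![(k : ℝ), (m : ℝ), 0] ∈ range (zp u u' t' a')) : x ∈ range (zp u u' t a) := by
  have e : ∀ z : V, z = x + ![(k : ℝ), (m : ℝ), 0] →
      z + ![((-k : ℤ) : ℝ), ((-m : ℤ) : ℝ), 0] = x := by
    rintro _ rfl; funext i; fin_cases i <;> simp <;> rfl
  rcases S'.mem_range.1 hx with ⟨y, hy, h⟩ | ⟨y, hy, h⟩ | ⟨y, hy, h⟩
  · exact S.mem_range.2 (Or.inl ⟨![y 0 + (-k : ℤ), y 1 + (-m : ℤ)], by simp; linarith,
      by rw [C.hu'.shift, eta2, e _ h]⟩)
  · refine S.mem_range.2 (Or.inr (Or.inl ⟨![y 0 + (-k : ℤ), y 1], hy, ?_⟩))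
    rw [S.per y hy, ← e _ h, ha]
    funext i; fin_cases i <;> simp <;> rfl
  · exact S.mem_range.2 (Or.inr (Or.inr ⟨![y 0 + (-k : ℤ), y 1 + (-m : ℤ)], by simp; linarith,
      by rw [C.hu.shift, eta2, e _ h]⟩))

/-- far to the right the Z-plane is the bottom, far to the left it is the top -/
theorem far (S : Str H u u' t a) (C : Ctx H c u u') :
    ∃ M, ∀ x : V, (M < x 1 → x ∈ Up u → x ∈ Up (zp u u' t a)) ∧
      (x 1 < -M → x ∈ Dn u' → x ∈ Dn (zp u u' t a)) := by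
  obtain ⟨C1, -, h1⟩ := C.p.coord
  obtain ⟨C2, -, h2⟩ := C.p'.coord
  obtain ⟨C3, h3⟩ := S.bdd
  have h3' : ∀ y ∈ strip, |a y 1| ≤ C3 + 1 := fun y hy => by
    have := abs_le.1 ((norm_le_pi_norm (a y - lv 0 y) 1).trans (h3 y hy))
    simp only [Pi.sub_apply, lv_one] at this
    exact abs_le.2 ⟨by linarith [hy.1], by linarith [hy.2]⟩
  have Z := S.pln C
  obtain ⟨zh, hzh⟩ := Z.exists_high
  obtain ⟨zl, hzl⟩ := Z.exists_low
  set M := max (max C1 C2 + |t|) (C3 + 1) with hM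
  have m1 : C1 + |t| ≤ M := le_max_of_le_left (by simp)
  have m2 : C2 + |t| ≤ M := le_max_of_le_left (by simp)
  have m3 : C3 + 1 ≤ M := le_max_right _ _
  have t1 := le_abs_self t
  have t2 := neg_abs_le t
  have r1 : ∀ x : V, x ∉ {x : V | x 1 ≤ M} → (x ∈ range u ↔ x ∈ range (zp u u' t a)) := by
    intro x hx
    have hx' : M < x 1 := not_le.1 hx
    rw [S.mem_range]
    constructor
    · rintro ⟨y, rfl⟩
      exact Or.inr (Or.inr ⟨y, by linarith [(abs_le.1 (h1 y).2.1).2], rfl⟩)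
    · rintro (⟨y, hy, rfl⟩ | ⟨y, hy, rfl⟩ | ⟨y, -, rfl⟩)
      · linarith [(abs_le.1 (h2 y).2.1).2]
      · linarith [(abs_le.1 (h3' y hy)).2]
      · exact ⟨y, rfl⟩
  have r2 : ∀ x : V, x ∉ {x : V | -M ≤ x 1} → (x ∈ range (zp u u' t a) ↔ x ∈ range u') := by
    intro x hx
    have hx' : x 1 < -M := not_le.1 hx
    rw [S.mem_range]
    constructor
    · rintro (⟨y, -, rfl⟩ | ⟨y, hy, rfl⟩ | ⟨y, hy, rfl⟩)
      · exact ⟨y, rfl⟩
      · linarith [(abs_le.1 (h3' y hy)).1]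
      · linarith [(abs_le.1 (h1 y).2.1).1]
    · rintro ⟨y, rfl⟩
      exact Or.inl ⟨y, by linarith [(abs_le.1 (h2 y).2.1).1], rfl⟩
  refine ⟨M, fun x => ⟨fun hx hU => ?_, fun hx hD => ?_⟩⟩
  · have := empty_of_closed (C.p.isOpen_Up.inter Z.isOpen_Dn)
      (C.p.isClosed_between Z.toPln2 (S.Dn_u C)
        (isClosed_le (continuous_apply 1) continuous_const) r1)
      (F := {x | M < x 1}) (convex_halfSpace_gt (f := fun y : V => y 1)
        ⟨fun _ _ => rfl, fun _ _ => rfl⟩ M).isPreconnected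
      (fun x (hx : M < x 1) (h : x 1 ≤ M) => not_le.2 hx h)
      (z := ![0, M + 1, zh 2]) (by simp)
      (fun h => disjoint_left.1 Z.toPln.disjoint h.2 (Pln.high (z := ![0, M + 1, zh 2]) hzh)) x hx
    rcases Z.tri x with h | h | h
    exacts [(this ⟨hU, h⟩).elim, (Pln.Up_sub hU ((r1 x (not_le.2 hx)).2 h)).elim, h]
  · have := empty_of_closed (Z.isOpen_Up.inter C.p'.isOpen_Dn)
      (Z.isClosed_between C.p'.toPln2 (S.Dn_u' C)
        (isClosed_le continuous_const (continuous_apply 1)) r2)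
      (F := {x | x 1 < -M}) (convex_halfSpace_lt (f := fun y : V => y 1)
        ⟨fun _ _ => rfl, fun _ _ => rfl⟩ (-M)).isPreconnected
      (fun x (hx : x 1 < -M) (h : -M ≤ x 1) => not_le.2 hx h)
      (z := ![0, -M - 1, zl 2]) (by simp)
      (fun h => disjoint_left.1 Z.toPln.disjoint (Pln.low (z := ![0, -M - 1, zl 2]) hzl) h.1) x hx
    rcases Z.tri x with h | h | h
    exacts [h, (Pln.Dn_sub hD ((r2 x (not_le.2 hx)).1 h)).elim, (this ⟨h, hD⟩).elim]

end Str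

end Crest.Agent.X212.Prd34
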